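import Vale.Agent.P358.MathlibUsed
import Vale.Agent.P358.Defs
import Vale.Agent.P358.DefsBin

set_option linter.all false

section

section

set_option autoImplicit false

namespace Vale.Agent.P358

open Matrix Filter Topology Real
open scoped ComplexOrder

/-- `HasEnt F N τ h`: `F` is a combination of `log (t + x)` with total weight `N`,
first moment `τ` and entropy `h`, witnessed by an antiderivative. -/
def HasEnt (F : ℝ → ℝ) (N τ h : ℝ) : Prop :=
  ∃ G : ℝ → ℝ, ContinuousOn G (Set.Ici 0) ∧ (∀ t : ℝ, 0 < t → HasDerivAt G (F t + N) t) ∧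
    G 0 = -h ∧
    Tendsto (fun T => G T - N * (T * Real.log T) - τ * (Real.log T + 1)) atTop (𝓝 0)

theorem hasEnt_log {x : ℝ} (hx : 0 ≤ x) :
    HasEnt (fun t => Real.log (t + x)) 1 x (Real.negMulLog x) := by
  refine ⟨fun T => (T + x) * Real.log (T + x), ?_, ?_, ?_, ?_⟩
  · exact (Real.continuous_mul_log.comp (continuous_id.add continuous_const)).continuousOn
  · intro t ht
    have h1 : HasDerivAt (fun T : ℝ => T + x) 1 t := (hasDerivAt_id t).add_const x
    have h2 := (Real.hasDerivAt_mul_log (x := t + x) (by positivity)).comp t h1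
    exact h2.congr_deriv (by ring)
  · simp [Real.negMulLog]
  · have h1 : Tendsto (fun T : ℝ => T * Real.log (1 + x / T)) atTop (𝓝 x) :=
      Real.tendsto_mul_log_one_add_div_atTop x
    have h2 : Tendsto (fun T : ℝ => Real.log (1 + x / T)) atTop (𝓝 0) := by
      have h3 : Tendsto (fun T : ℝ => 1 + x / T) atTop (𝓝 (1 + 0)) :=
        tendsto_const_nhds.add (tendsto_const_nhds.div_atTop tendsto_id)
      have h4 := (Real.continuousAt_log (x := (1 : ℝ)) one_ne_zero).tendsto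
      rw [add_zero] at h3
      simpa [Function.comp_def] using h4.comp h3
    have h5 : Tendsto (fun T : ℝ => T * Real.log (1 + x / T) + x * Real.log (1 + x / T) - x)
        atTop (𝓝 (x + x * 0 - x)) := (h1.add (h2.const_mul x)).sub_const x
    have h6 : x + x * 0 - x = 0 := by ring
    rw [h6] at h5
    refine h5.congr' ?_
    filter_upwards [eventually_gt_atTop 0] with T hT
    have h7 : T + x = T * (1 + x / T) := by field_simp
    have h8 : 0 < 1 + x / T := by positivity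
    have h9 : Real.log (T + x) = Real.log T + Real.log (1 + x / T) := by
      rw [h7, Real.log_mul hT.ne' h8.ne']
    rw [h9]
    ring

theorem HasEnt.add {F F' : ℝ → ℝ} {N N' τ τ' h h' : ℝ} (H : HasEnt F N τ h)
    (H' : HasEnt F' N' τ' h') : HasEnt (fun t => F t + F' t) (N + N') (τ + τ') (h + h') := by
  obtain ⟨G, c, d, z, l⟩ := H
  obtain ⟨G', c', d', z', l'⟩ := H'
  refine ⟨fun t => G t + G' t, c.add c', fun t ht => ?_, by simp [z, z']; ring, ?_⟩
  · exact ((d t ht).add (d' t ht)).congr_deriv (by ring)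
  · have := l.add l'
    rw [add_zero] at this
    refine this.congr fun T => ?_
    ring

theorem HasEnt.smul {F : ℝ → ℝ} {N τ h : ℝ} (c : ℝ) (H : HasEnt F N τ h) :
    HasEnt (fun t => c * F t) (c * N) (c * τ) (c * h) := by
  obtain ⟨G, cont, d, z, l⟩ := H
  refine ⟨fun t => c * G t, continuousOn_const.mul cont, fun t ht => ?_, by simp [z], ?_⟩
  · exact ((d t ht).const_mul c).congr_deriv (by ring)
  · have := l.const_mul c
    rw [mul_zero] at this
    refine this.congr fun T => ?_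
    ring

theorem HasEnt.neg {F : ℝ → ℝ} {N τ h : ℝ} (H : HasEnt F N τ h) :
    HasEnt (fun t => -F t) (-N) (-τ) (-h) := by
  have := H.smul (-1)
  simpa using this

theorem HasEnt.sub {F F' : ℝ → ℝ} {N N' τ τ' h h' : ℝ} (H : HasEnt F N τ h)
    (H' : HasEnt F' N' τ' h') : HasEnt (fun t => F t - F' t) (N - N') (τ - τ') (h - h') := by
  have := H.add H'.neg
  simpa [sub_eq_add_neg] using this

theorem hasEnt_zero : HasEnt (fun _ => 0) 0 0 0 :=
  ⟨fun _ => 0, continuousOn_const, fun t _ => by simpa using hasDerivAt_const t (0 : ℝ), by simp,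
    by simp⟩

theorem HasEnt.sum {ι : Type*} (s : Finset ι) {F : ι → ℝ → ℝ} {N τ h : ι → ℝ}
    (H : ∀ i ∈ s, HasEnt (F i) (N i) (τ i) (h i)) :
    HasEnt (fun t => ∑ i ∈ s, F i t) (∑ i ∈ s, N i) (∑ i ∈ s, τ i) (∑ i ∈ s, h i) := by
  classical
  induction s using Finset.induction_on with
  | empty => simpa using hasEnt_zero
  | insert a s ha ih =>
    simp only [Finset.sum_insert ha]
    exact (H a (Finset.mem_insert_self a s)).add
      (ih fun i hi => H i (Finset.mem_insert_of_mem hi))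

theorem HasEnt.congr {F F' : ℝ → ℝ} {N τ h : ℝ} (H : HasEnt F N τ h)
    (e : ∀ t : ℝ, 0 < t → F' t = F t) : HasEnt F' N τ h := by
  obtain ⟨G, c, d, z, l⟩ := H
  exact ⟨G, c, fun t ht => by rw [e t ht]; exact d t ht, z, l⟩

/-- Main comparison principle. -/
theorem HasEnt.nonneg {F : ℝ → ℝ} {h : ℝ} (H : HasEnt F 0 0 h)
    (hF : ∀ t : ℝ, 0 < t → 0 ≤ F t) : 0 ≤ h := by
  obtain ⟨G, c, d, z, l⟩ := H
  have hmono : MonotoneOn G (Set.Ici 0) := by
    apply monotoneOn_of_deriv_nonneg (convex_Ici 0) c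
    · intro t ht
      rw [interior_Ici] at ht
      exact (d t ht).differentiableAt.differentiableWithinAt
    · intro t ht
      rw [interior_Ici] at ht
      rw [(d t ht).deriv]
      simpa using hF t ht
  have l' : Tendsto G atTop (𝓝 0) := by simpa using l
  have hG0 : G 0 ≤ 0 := by
    refine ge_of_tendsto l' ?_
    filter_upwards [eventually_ge_atTop 0] with T hT
    exact hmono Set.self_mem_Ici hT hT
  rw [z] at hG0
  linarith

theorem HasEnt.mono {F F' : ℝ → ℝ} {N τ h h' : ℝ} (H : HasEnt F N τ h) (H' : HasEnt F' N τ h')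
    (hF : ∀ t : ℝ, 0 < t → F t ≤ F' t) : h ≤ h' := by
  have h1 := H'.sub H
  rw [sub_self, sub_self] at h1
  have := h1.nonneg fun t ht => sub_nonneg.2 (hF t ht)
  linarith

theorem HasEnt.unique {F F' : ℝ → ℝ} {N τ h h' : ℝ} (H : HasEnt F N τ h) (H' : HasEnt F' N τ h')
    (hF : ∀ t : ℝ, 0 < t → F t = F' t) : h = h' :=
  le_antisymm (H.mono H' fun t ht => (hF t ht).le) (H'.mono H fun t ht => (hF t ht).ge)

end Vale.Agent.P358
end
end

section

section

set_option autoImplicit false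

namespace Vale.Agent.P358

open Matrix
open scoped ComplexOrder

variable {ι : Type} [Fintype ι] [DecidableEq ι] {κ : Type} [Fintype κ] [DecidableEq κ]

/-- von Neumann entropy in nats. -/
noncomputable def vN (X : Matrix ι ι ℂ) : ℝ :=
  if h : X.IsHermitian then ∑ i, Real.negMulLog (h.eigenvalues i) else 0

/-- log det (t + X). -/
noncomputable def ld (X : Matrix ι ι ℂ) (t : ℝ) : ℝ :=
  Real.log ((t : ℂ) • (1 : Matrix ι ι ℂ) + X).det.re

theorem exists_diag' {X : Matrix ι ι ℂ} (hX : X.IsHermitian) :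
    ∃ U : Matrix ι ι ℂ, U * Uᴴ = 1 ∧ Uᴴ * U = 1 ∧
      X = U * diagonal (fun i => (hX.eigenvalues i : ℂ)) * Uᴴ := by
  refine ⟨(hX.eigenvectorUnitary : Matrix ι ι ℂ), ?_, ?_, ?_⟩
  · have := Unitary.coe_mul_star_self hX.eigenvectorUnitary
    simpa [star_eq_conjTranspose] using this
  · have := Unitary.coe_star_mul_self hX.eigenvectorUnitary
    simpa [star_eq_conjTranspose] using this
  · have := hX.spectral_theorem
    rw [Unitary.conjStarAlgAut_apply] at this
    exact this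

theorem det_conj {U : Matrix ι ι ℂ} (h1 : U * Uᴴ = 1) (Y : Matrix ι ι ℂ) :
    (U * Y * Uᴴ).det = Y.det := by
  rw [det_mul, det_mul, mul_right_comm, ← det_mul, h1]
  simp

theorem smul_one_add_conj {U : Matrix ι ι ℂ} (h1 : U * Uᴴ = 1) (Y : Matrix ι ι ℂ) (c : ℂ) :
    c • (1 : Matrix ι ι ℂ) + U * Y * Uᴴ = U * (c • (1 : Matrix ι ι ℂ) + Y) * Uᴴ := by
  rw [Matrix.mul_add, Matrix.add_mul]
  simp [h1]

theorem det_smul_one_add_diag {U : Matrix ι ι ℂ} (h1 : U * Uᴴ = 1) (d : ι → ℝ) (t : ℝ) :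
    ((t : ℂ) • (1 : Matrix ι ι ℂ) + U * diagonal (fun i => (d i : ℂ)) * Uᴴ).det
      = ((∏ i, (t + d i) : ℝ) : ℂ) := by
  rw [smul_one_add_conj h1, det_conj h1]
  rw [smul_one_eq_diagonal, diagonal_add, det_diagonal]
  push_cast
  rfl

theorem hasEnt_diag {U : Matrix ι ι ℂ} (h1 : U * Uᴴ = 1) (d : ι → ℝ) (hd : ∀ i, 0 ≤ d i) :
    HasEnt (ld (U * diagonal (fun i => (d i : ℂ)) * Uᴴ)) (Fintype.card ι) (∑ i, d i)
      (∑ i, Real.negMulLog (d i)) := by
  have h := HasEnt.sum Finset.univ (F := fun i t => Real.log (t + d i)) (N := fun _ => 1)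
    (τ := d) (h := fun i => Real.negMulLog (d i)) (fun i _ => hasEnt_log (hd i))
  simp only [Finset.sum_const, Finset.card_univ, nsmul_eq_mul, mul_one] at h
  refine h.congr fun t ht => ?_
  unfold ld
  rw [det_smul_one_add_diag h1, Complex.ofReal_re, Real.log_prod]
  intro i _
  have := hd i
  positivity

theorem trace_conj {U : Matrix ι ι ℂ} (h2 : Uᴴ * U = 1) (Y : Matrix ι ι ℂ) :
    (U * Y * Uᴴ).trace = Y.trace := by
  rw [trace_mul_cycle, h2, Matrix.one_mul]

theorem hasEnt_matrix {X : Matrix ι ι ℂ} (hX : X.PosSemidef) :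
    HasEnt (ld X) (Fintype.card ι) X.trace.re (vN X) := by
  obtain ⟨U, h1, h2, h3⟩ := exists_diag' hX.1
  have h := hasEnt_diag h1 hX.1.eigenvalues hX.eigenvalues_nonneg
  rw [← h3] at h
  have e : X.trace.re = ∑ i, hX.1.eigenvalues i := by
    rw [hX.1.trace_eq_sum_eigenvalues]
    simp
  rw [e]
  have e2 : vN X = ∑ i, Real.negMulLog (hX.1.eigenvalues i) := by
    unfold vN
    rw [dif_pos hX.1]
  rw [e2]
  exact h

theorem diag_conj_posSemidef {U : Matrix ι ι ℂ} {d : ι → ℝ} (hd : ∀ i, 0 ≤ d i) :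
    (U * diagonal (fun i => (d i : ℂ)) * Uᴴ).PosSemidef := by
  apply PosSemidef.mul_mul_conjTranspose_same
  apply PosSemidef.diagonal
  intro i
  simpa using hd i

theorem vN_diag_conj {U : Matrix ι ι ℂ} (h1 : U * Uᴴ = 1) (d : ι → ℝ) (hd : ∀ i, 0 ≤ d i) :
    vN (U * diagonal (fun i => (d i : ℂ)) * Uᴴ) = ∑ i, Real.negMulLog (d i) := by
  have h2 : Uᴴ * U = 1 := mul_eq_one_comm.1 h1
  have ha := hasEnt_diag h1 d hd
  have hb := hasEnt_matrix (diag_conj_posSemidef (U := U) hd)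
  rw [trace_conj h2, trace_diagonal] at hb
  have e : (∑ i, (d i : ℂ)).re = ∑ i, d i := by simp
  rw [e] at hb
  exact hb.unique ha fun t _ => rfl

theorem vN_diagonal (d : ι → ℝ) (hd : ∀ i, 0 ≤ d i) :
    vN (diagonal (fun i => (d i : ℂ))) = ∑ i, Real.negMulLog (d i) := by
  have := vN_diag_conj (U := (1 : Matrix ι ι ℂ)) (by simp) d hd
  simpa using this

theorem vN_conj {U : Matrix ι ι ℂ} (h1 : U * Uᴴ = 1) {X : Matrix ι ι ℂ} (hX : X.PosSemidef) :
    vN (U * X * Uᴴ) = vN X := by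
  have h2 : Uᴴ * U = 1 := mul_eq_one_comm.1 h1
  have ha := hasEnt_matrix hX
  have hb := hasEnt_matrix (hX.mul_mul_conjTranspose_same U)
  rw [trace_conj h2] at hb
  refine hb.unique ha fun t _ => ?_
  unfold ld
  rw [smul_one_add_conj h1, det_conj h1]

theorem vN_submatrix {X : Matrix ι ι ℂ} (hX : X.PosSemidef) (e : κ ≃ ι) :
    vN (X.submatrix e e) = vN X := by
  have ha := hasEnt_matrix hX
  have hb := hasEnt_matrix ((posSemidef_submatrix_equiv e).2 hX)
  rw [Fintype.card_congr e] at hb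
  have htr : (X.submatrix e e).trace = X.trace := by
    simp only [trace, diag_apply, submatrix_apply]
    exact e.sum_comp fun i => X i i
  rw [htr] at hb
  refine hb.unique ha fun t _ => ?_
  unfold ld
  have : (t : ℂ) • (1 : Matrix κ κ ℂ) + X.submatrix e e
      = ((t : ℂ) • (1 : Matrix ι ι ℂ) + X).submatrix e e := by
    ext i j
    simp [Matrix.one_apply]
  rw [this, det_submatrix_equiv_self]

theorem vN_smul {X : Matrix ι ι ℂ} (hX : X.PosSemidef) {c : ℝ} (hc : 0 ≤ c) :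
    vN ((c : ℂ) • X) = c * vN X + X.trace.re * Real.negMulLog c := by
  obtain ⟨U, h1, h2, h3⟩ := exists_diag' hX.1
  have hd := hX.eigenvalues_nonneg
  set d := hX.1.eigenvalues with hdd
  have e1 : (c : ℂ) • X = U * diagonal (fun i => ((c * d i : ℝ) : ℂ)) * Uᴴ := by
    have : (fun i => ((c * d i : ℝ) : ℂ)) = (c : ℂ) • (fun i => (d i : ℂ)) := by
      ext i; simp
    rw [this, diagonal_smul, Matrix.mul_smul, Matrix.smul_mul, ← h3]
  have e2 : vN X = ∑ i, Real.negMulLog (d i) := by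
    unfold vN
    rw [dif_pos hX.1]
  have e3 : X.trace.re = ∑ i, d i := by
    rw [hX.1.trace_eq_sum_eigenvalues]
    simp [hdd]
  rw [e1, vN_diag_conj h1 _ (fun i => mul_nonneg hc (hd i)), e2, e3, Finset.mul_sum,
    Finset.sum_mul, ← Finset.sum_add_distrib]
  refine Finset.sum_congr rfl fun i _ => ?_
  rw [Real.negMulLog_mul]
  ring

theorem vN_zero : vN (0 : Matrix ι ι ℂ) = 0 := by
  have := vN_diagonal (fun _ : ι => (0 : ℝ)) (fun _ => le_rfl)
  simpa using this

/-- diagonal bound -/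
theorem vN_le_diag {X : Matrix ι ι ℂ} (hX : X.PosSemidef) :
    vN X ≤ ∑ i, Real.negMulLog (X i i).re := by
  obtain ⟨U, h1, h2, h3⟩ := exists_diag' hX.1
  have hd := hX.eigenvalues_nonneg
  set d := hX.1.eigenvalues with hdd
  have e2 : vN X = ∑ i, Real.negMulLog (d i) := by
    unfold vN
    rw [dif_pos hX.1]
  have row : ∀ i, ∑ j, ‖U i j‖ ^ 2 = 1 := by
    intro i
    have := congrFun (congrFun h1 i) i
    simp only [mul_apply, conjTranspose_apply, one_apply_eq] at this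
    have h : ((∑ j, ‖U i j‖ ^ 2 : ℝ) : ℂ) = 1 := by
      push_cast
      rw [← this]
      refine Finset.sum_congr rfl fun j _ => ?_
      rw [← Complex.mul_conj']
      rfl
    exact_mod_cast h
  have col : ∀ j, ∑ i, ‖U i j‖ ^ 2 = 1 := by
    intro j
    have := congrFun (congrFun h2 j) j
    simp only [mul_apply, conjTranspose_apply, one_apply_eq] at this
    have h : ((∑ i, ‖U i j‖ ^ 2 : ℝ) : ℂ) = 1 := by
      push_cast
      rw [← this]
      refine Finset.sum_congr rfl fun i _ => ?_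
      rw [← Complex.conj_mul']
      rfl
    exact_mod_cast h
  have diagE : ∀ i, (X i i).re = ∑ j, ‖U i j‖ ^ 2 * d j := by
    intro i
    have : X i i = ((∑ j, ‖U i j‖ ^ 2 * d j : ℝ) : ℂ) := by
      conv_lhs => rw [h3]
      rw [mul_apply]
      push_cast
      refine Finset.sum_congr rfl fun j _ => ?_
      rw [mul_diagonal, conjTranspose_apply, ← Complex.mul_conj', mul_right_comm]
      rfl
    rw [this, Complex.ofReal_re]
  rw [e2]
  calc ∑ j, Real.negMulLog (d j) = ∑ j, (∑ i, ‖U i j‖ ^ 2) * Real.negMulLog (d j) := by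
        simp [col]
    _ = ∑ i, ∑ j, ‖U i j‖ ^ 2 * Real.negMulLog (d j) := by
        rw [Finset.sum_comm]
        simp [Finset.sum_mul]
    _ ≤ ∑ i, Real.negMulLog (X i i).re := by
        refine Finset.sum_le_sum fun i _ => ?_
        rw [diagE i]
        have := Real.concaveOn_negMulLog.le_map_sum (t := Finset.univ)
          (w := fun j => ‖U i j‖ ^ 2) (p := fun j => d j)
          (fun j _ => by positivity) (row i) (fun j _ => hd j)
        simpa using this

theorem vN_concave {X Y : Matrix ι ι ℂ} (hX : X.PosSemidef) (hY : Y.PosSemidef)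
    {a b : ℝ} (ha : 0 ≤ a) (hb : 0 ≤ b) (hab : a + b = 1) :
    a * vN X + b * vN Y ≤ vN ((a : ℂ) • X + (b : ℂ) • Y) := by
  have hO : ((a : ℂ) • X + (b : ℂ) • Y).PosSemidef :=
    (hX.smul (by simpa using ha)).add (hY.smul (by simpa using hb))
  obtain ⟨U, h1, h2, h3⟩ := exists_diag' hO.1
  have h1' : Uᴴ * Uᴴᴴ = 1 := by rw [conjTranspose_conjTranspose]; exact h2
  set d := hO.1.eigenvalues with hdd
  have e2 : vN ((a : ℂ) • X + (b : ℂ) • Y) = ∑ i, Real.negMulLog (d i) := by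
    unfold vN
    rw [dif_pos hO.1]
  have eX : vN (Uᴴ * X * Uᴴᴴ) = vN X := vN_conj h1' hX
  have eY : vN (Uᴴ * Y * Uᴴᴴ) = vN Y := vN_conj h1' hY
  have pX := hX.mul_mul_conjTranspose_same Uᴴ
  have pY := hY.mul_mul_conjTranspose_same Uᴴ
  have key : ∀ i, d i = a * ((Uᴴ * X * Uᴴᴴ) i i).re + b * ((Uᴴ * Y * Uᴴᴴ) i i).re := by
    intro i
    have : diagonal (fun i => (d i : ℂ)) = Uᴴ * ((a : ℂ) • X + (b : ℂ) • Y) * Uᴴᴴ := by
      rw [h3, conjTranspose_conjTranspose]
      calc diagonal (fun i => (d i : ℂ)) = (Uᴴ * U) * diagonal (fun i => (d i : ℂ)) * (Uᴴ * U) := by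
            rw [h2]; simp
        _ = _ := by simp only [Matrix.mul_assoc]
    have h4 := congrFun (congrFun this i) i
    rw [diagonal_apply_eq, Matrix.mul_add, Matrix.add_mul] at h4
    simp only [Matrix.mul_smul, Matrix.smul_mul, Matrix.add_apply, Matrix.smul_apply, smul_eq_mul] at h4
    have h5 := congrArg Complex.re h4
    simpa using h5
  rw [e2]
  have bX := vN_le_diag pX
  have bY := vN_le_diag pY
  rw [eX] at bX
  rw [eY] at bY
  calc a * vN X + b * vN Y ≤ a * ∑ i, Real.negMulLog ((Uᴴ * X * Uᴴᴴ) i i).re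
        + b * ∑ i, Real.negMulLog ((Uᴴ * Y * Uᴴᴴ) i i).re :=
        add_le_add (mul_le_mul_of_nonneg_left bX ha) (mul_le_mul_of_nonneg_left bY hb)
    _ = ∑ i, (a * Real.negMulLog ((Uᴴ * X * Uᴴᴴ) i i).re
        + b * Real.negMulLog ((Uᴴ * Y * Uᴴᴴ) i i).re) := by
        rw [Finset.mul_sum, Finset.mul_sum, Finset.sum_add_distrib]
    _ ≤ ∑ i, Real.negMulLog (d i) := by
        refine Finset.sum_le_sum fun i _ => ?_
        rw [key i]
        have hx : (0 : ℝ) ≤ ((Uᴴ * X * Uᴴᴴ) i i).re := by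
          have := pX.diag_nonneg (i := i)
          exact (Complex.le_def.1 this).1
        have hy : (0 : ℝ) ≤ ((Uᴴ * Y * Uᴴᴴ) i i).re := by
          have := pY.diag_nonneg (i := i)
          exact (Complex.le_def.1 this).1
        have := Real.concaveOn_negMulLog.2 hx hy ha hb hab
        simpa using this

end Vale.Agent.P358
end
end

section

section

set_option autoImplicit false

namespace Vale.Agent.P358

open Real

/-- entropy of the two roots of `x^2 - T x + D`. -/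
noncomputable def eta2 (T D : ℝ) : ℝ :=
  negMulLog ((T + √(T ^ 2 - 4 * D)) / 2) + negMulLog ((T - √(T ^ 2 - 4 * D)) / 2)

theorem sqrt_le_T {T D : ℝ} (hT : 0 ≤ T) (hD : 0 ≤ D) : √(T ^ 2 - 4 * D) ≤ T := by
  rw [Real.sqrt_le_left hT]
  linarith

theorem hasEnt_eta2 {T D : ℝ} (hT : 0 ≤ T) (hD : 0 ≤ D) (h : 4 * D ≤ T ^ 2) :
    HasEnt (fun t => Real.log (t ^ 2 + t * T + D)) 2 T (eta2 T D) := by
  have h1 : 0 ≤ (T + √(T ^ 2 - 4 * D)) / 2 := by positivity
  have h2 : 0 ≤ (T - √(T ^ 2 - 4 * D)) / 2 := by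
    have := sqrt_le_T hT hD
    linarith
  have h3 := (hasEnt_log h1).add (hasEnt_log h2)
  have e1 : (1 : ℝ) + 1 = 2 := by norm_num
  have e2 : (T + √(T ^ 2 - 4 * D)) / 2 + (T - √(T ^ 2 - 4 * D)) / 2 = T := by ring
  rw [e1, e2] at h3
  refine h3.congr fun t ht => ?_
  rw [← Real.log_mul (by positivity) (by positivity)]
  congr 1
  have hs : √(T ^ 2 - 4 * D) ^ 2 = T ^ 2 - 4 * D := Real.sq_sqrt (by linarith)
  nlinarith [hs]

theorem eta2_scale {T D c : ℝ} (hc : 0 ≤ c) :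
    eta2 (c * T) (c ^ 2 * D) = c * eta2 T D + T * negMulLog c := by
  unfold eta2
  have h1 : √((c * T) ^ 2 - 4 * (c ^ 2 * D)) = c * √(T ^ 2 - 4 * D) := by
    have : (c * T) ^ 2 - 4 * (c ^ 2 * D) = c ^ 2 * (T ^ 2 - 4 * D) := by ring
    rw [this, Real.sqrt_mul (by positivity), Real.sqrt_sq hc]
  rw [h1]
  have e1 : (c * T + c * √(T ^ 2 - 4 * D)) / 2 = c * ((T + √(T ^ 2 - 4 * D)) / 2) := by ring
  have e2 : (c * T - c * √(T ^ 2 - 4 * D)) / 2 = c * ((T - √(T ^ 2 - 4 * D)) / 2) := by ring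
  rw [e1, e2, negMulLog_mul, negMulLog_mul]
  ring

/-- `K p r q`: entropy increment. -/
noncomputable def K (p r q : ℝ) : ℝ := eta2 (p + r + q) (r * q) - negMulLog r - negMulLog q

theorem hasEnt_K {p r q : ℝ} (hp : 0 ≤ p) (hr : 0 ≤ r) (hq : 0 ≤ q) :
    HasEnt (fun t => Real.log (1 + t * p / ((t + r) * (t + q)))) 0 p (K p r q) := by
  have h1 := hasEnt_eta2 (T := p + r + q) (D := r * q) (by positivity) (by positivity)
    (by nlinarith [sq_nonneg (r - q), mul_nonneg hp hr, mul_nonneg hp hq])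
  have h2 := (h1.sub (hasEnt_log hr)).sub (hasEnt_log hq)
  have e1 : (2 : ℝ) - 1 - 1 = 0 := by norm_num
  have e2 : p + r + q - r - q = p := by ring
  rw [e1, e2] at h2
  refine h2.congr fun t ht => ?_
  have a1 : 0 < t + r := by positivity
  have a2 : 0 < t + q := by positivity
  have a3 : 1 + t * p / ((t + r) * (t + q))
      = (t ^ 2 + t * (p + r + q) + r * q) / ((t + r) * (t + q)) := by
    field_simp
    ring
  rw [a3, Real.log_div (by positivity) (by positivity), Real.log_mul a1.ne' a2.ne']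
  ring

theorem K_zero {r q : ℝ} (hr : 0 ≤ r) (hq : 0 ≤ q) : K 0 r q = 0 := by
  have h := hasEnt_K (le_refl (0 : ℝ)) hr hq
  refine h.unique hasEnt_zero fun t _ => ?_
  simp

theorem K_scale {p r q : ℝ} (hp : 0 < p) :
    K p r q = p * K 1 (r / p) (q / p) + negMulLog p := by
  unfold K
  have e1 : p + r + q = p * (1 + r / p + q / p) := by field_simp
  have e2 : r * q = p ^ 2 * (r / p * (q / p)) := by field_simp
  have e3 : negMulLog r = (r / p) * negMulLog p + p * negMulLog (r / p) := by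
    rw [← negMulLog_mul]
    congr 1
    field_simp
  have e4 : negMulLog q = (q / p) * negMulLog p + p * negMulLog (q / p) := by
    rw [← negMulLog_mul]
    congr 1
    field_simp
  rw [e1, e2, eta2_scale hp.le, e3, e4]
  ring

/-- convexity of `x ↦ log (1 + t e^{-x})`. -/
theorem convexOn_g {t : ℝ} (ht : 0 < t) :
    ConvexOn ℝ Set.univ fun x : ℝ => Real.log (1 + t * Real.exp (-x)) := by
  have hd : ∀ x : ℝ, HasDerivAt (fun x : ℝ => Real.log (1 + t * Real.exp (-x)))
      (-(t / (Real.exp x + t))) x := by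
    intro x
    have h1 : HasDerivAt (fun x : ℝ => Real.exp (-x)) (-Real.exp (-x)) x := by
      have := (hasDerivAt_neg x).exp
      simpa using this
    have h2 : HasDerivAt (fun x : ℝ => 1 + t * Real.exp (-x)) (t * -Real.exp (-x)) x :=
      (h1.const_mul t).const_add 1
    have h3 := h2.log (by positivity)
    refine h3.congr_deriv ?_
    rw [Real.exp_neg]
    have := Real.exp_pos x
    field_simp
  apply MonotoneOn.convexOn_of_deriv convex_univ
  · exact fun x _ => (hd x).continuousAt.continuousWithinAt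
  · exact fun x _ => (hd x).differentiableAt.differentiableWithinAt
  · intro x _ y _ hxy
    rw [(hd x).deriv, (hd y).deriv]
    have h1 := Real.exp_pos x
    have h2 := Real.exp_le_exp.2 hxy
    have : t / (Real.exp y + t) ≤ t / (Real.exp x + t) := by gcongr
    linarith

theorem jensen_g {ι : Type*} (s : Finset ι) {t : ℝ} (ht : 0 < t) (w u v : ι → ℝ)
    (hw : ∀ i ∈ s, 0 ≤ w i) (hw1 : ∑ i ∈ s, w i = 1) (hu : ∀ i ∈ s, 0 < u i)
    (hv : ∀ i ∈ s, 0 < v i) {U V : ℝ} (hU : ∑ i ∈ s, w i * u i ≤ U)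
    (hV : ∑ i ∈ s, w i * v i ≤ V) :
    Real.log (1 + t / (U * V)) ≤ ∑ i ∈ s, w i * Real.log (1 + t / (u i * v i)) := by
  have hJ := (convexOn_g ht).map_sum_le (t := s) (w := w)
    (p := fun i => Real.log (u i) + Real.log (v i)) hw hw1 (fun _ _ => Set.mem_univ _)
  simp only [smul_eq_mul] at hJ
  have e : ∀ i ∈ s, w i * Real.log (1 + t * Real.exp (-(Real.log (u i) + Real.log (v i))))
      = w i * Real.log (1 + t / (u i * v i)) := by
    intro i hi
    rw [neg_add, Real.exp_add, Real.exp_neg, Real.exp_neg, Real.exp_log (hu i hi),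
      Real.exp_log (hv i hi)]
    congr 2
    have := hu i hi
    have := hv i hi
    field_simp
  rw [Finset.sum_congr rfl e] at hJ
  refine le_trans ?_ hJ
  -- positivity of the means
  have hs : s.Nonempty := by
    by_contra hne
    rw [Finset.not_nonempty_iff_eq_empty] at hne
    simp [hne] at hw1
  have posmean : ∀ (f : ι → ℝ), (∀ i ∈ s, 0 < f i) → 0 < ∑ i ∈ s, w i * f i := by
    intro f hf
    obtain ⟨i, hi, hwi⟩ : ∃ i ∈ s, 0 < w i := by
      by_contra hne
      push Not at hne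
      have : ∑ i ∈ s, w i ≤ 0 := Finset.sum_nonpos hne
      linarith
    exact Finset.sum_pos' (fun j hj => mul_nonneg (hw j hj) (hf j hj).le)
      ⟨i, hi, mul_pos hwi (hf i hi)⟩
  have logmean : ∀ (f : ι → ℝ), (∀ i ∈ s, 0 < f i) → ∀ M, ∑ i ∈ s, w i * f i ≤ M →
      ∑ i ∈ s, w i * Real.log (f i) ≤ Real.log M := by
    intro f hf M hM
    have h := strictConcaveOn_log_Ioi.concaveOn.le_map_sum (t := s) (w := w) (p := f) hw hw1
      (fun i hi => hf i hi)
    simp only [smul_eq_mul] at h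
    exact h.trans (Real.log_le_log (posmean f hf) hM)
  have hUpos : 0 < U := (posmean u hu).trans_le hU
  have hVpos : 0 < V := (posmean v hv).trans_le hV
  have h1 := logmean u hu U hU
  have h2 := logmean v hv V hV
  have h3 : ∑ i ∈ s, w i * (Real.log (u i) + Real.log (v i)) ≤ Real.log U + Real.log V := by
    simp only [mul_add, Finset.sum_add_distrib]
    linarith
  have h4 : t / (U * V) = t * Real.exp (-(Real.log U + Real.log V)) := by
    rw [neg_add, Real.exp_add, Real.exp_neg, Real.exp_neg, Real.exp_log hUpos, Real.exp_log hVpos]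
    field_simp
  rw [h4]
  apply Real.log_le_log (by positivity)
  gcongr

/-- The scalar inequality. -/
theorem scalar_sum {ι : Type*} (s : Finset ι) (p r q : ι → ℝ)
    (hp : ∀ i ∈ s, 0 ≤ p i) (hr : ∀ i ∈ s, 0 ≤ r i) (hq : ∀ i ∈ s, 0 ≤ q i)
    {R Q : ℝ} (hR : ∑ i ∈ s, r i ≤ R) (hQ : ∑ i ∈ s, q i ≤ Q) :
    K (∑ i ∈ s, p i) R Q - negMulLog (∑ i ∈ s, p i) + ∑ i ∈ s, negMulLog (p i)
      ≤ ∑ i ∈ s, K (p i) (r i) (q i) := by
  classical
  have hR0 : 0 ≤ R := (Finset.sum_nonneg hr).trans hR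
  have hQ0 : 0 ≤ Q := (Finset.sum_nonneg hq).trans hQ
  have hP0 : 0 ≤ ∑ i ∈ s, p i := Finset.sum_nonneg hp
  rcases hP0.eq_or_lt with h0 | hP
  · have hz : ∀ i ∈ s, p i = 0 := (Finset.sum_eq_zero_iff_of_nonneg hp).1 h0.symm
    rw [← h0, K_zero hR0 hQ0]
    rw [Finset.sum_congr rfl (g := fun _ => (0 : ℝ)) (fun i hi => by rw [hz i hi]; simp)]
    rw [Finset.sum_congr rfl (f := fun i => K (p i) (r i) (q i)) (g := fun _ => (0 : ℝ))
      (fun i hi => by rw [hz i hi]; exact K_zero (hr i hi) (hq i hi))]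
    simp
  · set P := ∑ i ∈ s, p i with hPdef
    set s' := s.filter fun i => 0 < p i with hs'
    have hsub : ∀ i ∈ s, i ∉ s' → p i = 0 := by
      intro i hi hi'
      by_contra hne
      exact hi' (Finset.mem_filter.2 ⟨hi, lt_of_le_of_ne (hp i hi) (Ne.symm hne)⟩)
    have hmem : ∀ i ∈ s', i ∈ s := fun i hi => (Finset.mem_filter.1 hi).1
    have hpos : ∀ i ∈ s', 0 < p i := fun i hi => (Finset.mem_filter.1 hi).2
    have hss : s' ⊆ s := Finset.filter_subset _ _
    have eK : ∑ i ∈ s, K (p i) (r i) (q i) = ∑ i ∈ s', K (p i) (r i) (q i) := by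
      refine (Finset.sum_subset hss fun i hi hi' => ?_).symm
      rw [hsub i hi hi']
      exact K_zero (hr i hi) (hq i hi)
    have eN : ∑ i ∈ s, negMulLog (p i) = ∑ i ∈ s', negMulLog (p i) := by
      refine (Finset.sum_subset hss fun i hi hi' => ?_).symm
      rw [hsub i hi hi']
      simp
    have eP : P = ∑ i ∈ s', p i := by
      refine (Finset.sum_subset hss fun i hi hi' => ?_).symm
      exact hsub i hi hi'
    have hr' : ∑ i ∈ s', r i ≤ R :=
      (Finset.sum_le_sum_of_subset_of_nonneg hss fun i hi _ => hr i hi).trans hR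
    have hq' : ∑ i ∈ s', q i ≤ Q :=
      (Finset.sum_le_sum_of_subset_of_nonneg hss fun i hi _ => hq i hi).trans hQ
    have eKs : ∑ i ∈ s', K (p i) (r i) (q i)
        = ∑ i ∈ s', p i * K 1 (r i / p i) (q i / p i) + ∑ i ∈ s', negMulLog (p i) := by
      rw [← Finset.sum_add_distrib]
      exact Finset.sum_congr rfl fun i hi => K_scale (hpos i hi)
    rw [eK, eN, eKs, K_scale hP]
    have key : P * K 1 (R / P) (Q / P) ≤ ∑ i ∈ s', p i * K 1 (r i / p i) (q i / p i) := by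
      have hL := (hasEnt_K (p := 1) (r := R / P) (q := Q / P) zero_le_one (by positivity)
        (by positivity)).smul P
      have hRt := HasEnt.sum s' (fun i hi => (hasEnt_K (p := 1) (r := r i / p i) (q := q i / p i)
        zero_le_one (div_nonneg (hr i (hmem i hi)) (hpos i hi).le)
        (div_nonneg (hq i (hmem i hi)) (hpos i hi).le)).smul (p i))
      simp only [mul_zero, mul_one, Finset.sum_const_zero] at hL hRt
      rw [← eP] at hRt
      refine hL.mono hRt fun t ht => ?_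
      have hJ := jensen_g s' ht (fun i => p i / P) (fun i => t + r i / p i)
        (fun i => t + q i / p i) (fun i hi => div_nonneg (hpos i hi).le hP.le)
        (by rw [← Finset.sum_div, ← eP, div_self hP.ne'])
        (fun i hi => add_pos_of_pos_of_nonneg ht (div_nonneg (hr i (hmem i hi)) (hpos i hi).le))
        (fun i hi => add_pos_of_pos_of_nonneg ht (div_nonneg (hq i (hmem i hi)) (hpos i hi).le))
        (U := t + R / P) (V := t + Q / P)
        (by
          have : ∑ i ∈ s', p i / P * (t + r i / p i) = t + (∑ i ∈ s', r i) / P := by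
            have : ∀ i ∈ s', p i / P * (t + r i / p i) = t * (p i / P) + r i / P := by
              intro i hi
              have := hpos i hi
              field_simp
            rw [Finset.sum_congr rfl this, Finset.sum_add_distrib, ← Finset.mul_sum,
              ← Finset.sum_div, ← Finset.sum_div, ← eP, div_self hP.ne', mul_one]
          rw [this]
          gcongr)
        (by
          have : ∑ i ∈ s', p i / P * (t + q i / p i) = t + (∑ i ∈ s', q i) / P := by
            have : ∀ i ∈ s', p i / P * (t + q i / p i) = t * (p i / P) + q i / P := by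
              intro i hi
              have := hpos i hi
              field_simp
            rw [Finset.sum_congr rfl this, Finset.sum_add_distrib, ← Finset.mul_sum,
              ← Finset.sum_div, ← Finset.sum_div, ← eP, div_self hP.ne', mul_one]
          rw [this]
          gcongr)
      have h5 := mul_le_mul_of_nonneg_left hJ hP.le
      refine h5.trans (le_of_eq ?_)
      rw [Finset.mul_sum]
      refine Finset.sum_congr rfl fun i hi => ?_
      field_simp
    linarith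

end Vale.Agent.P358
end
end

section

section

set_option autoImplicit false

namespace Vale.Agent.P358

open Matrix
open scoped ComplexOrder

lemma pw_schur {m : Type} [Fintype m] [DecidableEq m] {M : Matrix (m ⊕ Unit) (m ⊕ Unit) ℂ}
    (hM : M.PosDef) :
    ∃ s : ℝ, 0 < s ∧ M.det.re = M.toBlocks₁₁.det.re * s ∧
      (∃ v : m ⊕ Unit → ℂ, v (Sum.inr ()) = 1 ∧ (star v ⬝ᵥ M *ᵥ v).re = s) ∧
      ∀ v : m ⊕ Unit → ℂ, v (Sum.inr ()) = 1 → s ≤ (star v ⬝ᵥ M *ᵥ v).re := by
  obtain ⟨A, B, C, D, rfl⟩ : ∃ A B C D, M = fromBlocks A B C D :=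
    ⟨_, _, _, _, (fromBlocks_toBlocks M).symm⟩
  have hH := hM.isHermitian
  rw [isHermitian_fromBlocks_iff] at hH
  obtain ⟨hA, hB, hC, hD⟩ := hH
  subst hB
  have hA' : A.PosDef := by
    have := hM.submatrix (e := Sum.inl) Sum.inl_injective
    exact this
  have : Invertible A := hA'.isUnit.invertible
  have key : ∀ v : m ⊕ Unit → ℂ, v (Sum.inr ()) = 1 →
      star v ⬝ᵥ (fromBlocks A B Bᴴ D) *ᵥ v =
        (star ((v ∘ Sum.inl) + ((A⁻¹ * B) *ᵥ (v ∘ Sum.inr))) ⬝ᵥ
          A *ᵥ ((v ∘ Sum.inl) + ((A⁻¹ * B) *ᵥ (v ∘ Sum.inr)))) +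
        (D - Bᴴ * A⁻¹ * B) () () := by
    intro v hv
    have h := schur_complement_eq₁₁ B D (v ∘ Sum.inl) (v ∘ Sum.inr) hA
    rw [Sum.elim_comp_inl_inr] at h
    rw [dotProduct_mulVec, h, dotProduct_mulVec]
    congr 1
    simp [vecMul, dotProduct, hv]
  have hdet : (fromBlocks A B Bᴴ D).det = A.det * (D - Bᴴ * A⁻¹ * B) () () := by
    rw [det_fromBlocks₁₁, invOf_eq_nonsing_inv, det_unique (D - Bᴴ * A⁻¹ * B)]
  have hAdet := hA'.det_pos
  have hv1 : ∃ v : m ⊕ Unit → ℂ, v (Sum.inr ()) = 1 ∧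
      star v ⬝ᵥ (fromBlocks A B Bᴴ D) *ᵥ v = (D - Bᴴ * A⁻¹ * B) () () := by
    refine ⟨Sum.elim (-((A⁻¹ * B) *ᵥ (fun _ => 1))) (fun _ => 1), rfl, ?_⟩
    rw [key _ rfl]
    simp
  obtain ⟨v, hv, hvs⟩ := hv1
  have hs : 0 < (D - Bᴴ * A⁻¹ * B) () () := by
    rw [← hvs]
    apply hM.dotProduct_mulVec_pos
    rintro rfl
    simp at hv
  refine ⟨((D - Bᴴ * A⁻¹ * B) () ()).re, ?_, ?_, ⟨v, hv, by rw [hvs]⟩, ?_⟩
  · exact (Complex.pos_iff.mp hs).1
  · rw [hdet, Complex.mul_re, toBlocks_fromBlocks₁₁]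
    rw [← (Complex.pos_iff.mp hAdet).2]
    simp
  · intro w hw
    rw [key w hw, Complex.add_re]
    have := (Complex.nonneg_iff.mp (hA'.posSemidef.dotProduct_mulVec_nonneg
      ((w ∘ Sum.inl) + ((A⁻¹ * B) *ᵥ (w ∘ Sum.inr))))).1
    linarith

lemma pw_step {m : Type} [Fintype m] [DecidableEq m] {X Z : Matrix (m ⊕ Unit) (m ⊕ Unit) ℂ}
    (hX : X.PosDef) (hZ : Z.PosSemidef) (ζ : ℝ) (hζ : 0 ≤ ζ)
    (hZζ : (Z - Matrix.single (Sum.inr ()) (Sum.inr ()) (ζ : ℂ)).PosSemidef) (P : ℝ)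
    (hP : 0 ≤ P) (hI : X.toBlocks₁₁.det.re * P ≤ (X.toBlocks₁₁ + Z.toBlocks₁₁).det.re) :
    X.det.re * (P * (1 + ζ / (X (Sum.inr ()) (Sum.inr ())).re)) ≤ (X + Z).det.re := by
  obtain ⟨s, hs, hdet, -, hmin⟩ := pw_schur hX
  obtain ⟨s', hs', hdet', ⟨v, hv, hvs⟩, -⟩ := pw_schur (hX.add_posSemidef hZ)
  have h1 : s ≤ (X (Sum.inr ()) (Sum.inr ())).re := by
    have := hmin (Pi.single (Sum.inr ()) 1) (by simp)
    simpa using this
  have h2 : s + ζ ≤ s' := by
    rw [← hvs, add_mulVec, dotProduct_add, Complex.add_re]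
    have h3 := hmin v hv
    have h4 := (Complex.nonneg_iff.mp (hZζ.dotProduct_mulVec_nonneg v)).1
    rw [sub_mulVec, dotProduct_sub, Complex.sub_re] at h4
    have h5 : (star v ⬝ᵥ (Matrix.single (Sum.inr ()) (Sum.inr ()) (ζ : ℂ)) *ᵥ v).re = ζ := by
      have h6 : (Matrix.single (Sum.inr ()) (Sum.inr ()) (ζ : ℂ) :
          Matrix (m ⊕ Unit) (m ⊕ Unit) ℂ) *ᵥ v = Pi.single (Sum.inr ()) (ζ : ℂ) := by
        simp [Matrix.single_mulVec, hv, Pi.single]
      rw [h6, dotProduct_single]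
      simp [hv]
    rw [h5] at h4
    linarith
  have hblk : (X + Z).toBlocks₁₁ = X.toBlocks₁₁ + Z.toBlocks₁₁ := by
    ext i j; rfl
  rw [hdet', hdet, hblk]
  have hXpos : 0 < X.toBlocks₁₁.det.re := by
    have h6 : (X.toBlocks₁₁).PosDef := hX.submatrix (e := Sum.inl) Sum.inl_injective
    exact (Complex.pos_iff.mp h6.det_pos).1
  have h7 : s * (1 + ζ / (X (Sum.inr ()) (Sum.inr ())).re) ≤ s' := by
    have hx : 0 < (X (Sum.inr ()) (Sum.inr ())).re := lt_of_lt_of_le hs h1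
    have : s * (ζ / (X (Sum.inr ()) (Sum.inr ())).re) ≤ ζ := by
      rw [mul_div_assoc', div_le_iff₀ hx]
      nlinarith
    linarith
  have h8 : 0 ≤ s * (1 + ζ / (X (Sum.inr ()) (Sum.inr ())).re) := by
    have hx : 0 < (X (Sum.inr ()) (Sum.inr ())).re := lt_of_lt_of_le hs h1
    positivity
  calc _ = (X.toBlocks₁₁.det.re * P) * (s * (1 + ζ / (X (Sum.inr ()) (Sum.inr ())).re)) := by ring
    _ ≤ _ := by
      apply mul_le_mul hI h7 h8
      exact le_trans (by positivity) hI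

theorem det_add_ge_aux (n : ℕ) : ∀ {ι : Type} [Fintype ι] [DecidableEq ι]
    (_ : Fintype.card ι = n) {X Z : Matrix ι ι ℂ} (_ : X.PosDef)
    (_ : Z.PosSemidef) (ζ : ι → ℝ) (_ : ∀ k, 0 ≤ ζ k)
    (_ : ∀ k, (Z - Matrix.single k k (ζ k : ℂ)).PosSemidef),
    X.det.re * ∏ k, (1 + ζ k / (X k k).re) ≤ (X + Z).det.re := by
  induction n with
  | zero =>
    intro ι _ _ hc X Z hX hZ ζ hζ hZζ
    have : IsEmpty ι := Fintype.card_eq_zero_iff.mp hc
    simp
  | succ n ih =>
    intro ι _ _ hc X Z hX hZ ζ hζ hZζ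
    have e : Fin n ⊕ Unit ≃ ι := Fintype.equivOfCardEq (by simp [hc])
    have hX' := hX.submatrix e.injective
    have hZ' := hZ.submatrix e
    have hZζ' : ∀ k, (Z.submatrix e e - Matrix.single k k (ζ (e k) : ℂ)).PosSemidef := by
      intro k
      have := (hZζ (e k)).submatrix e
      convert this using 1
      ext i j
      simp [Matrix.single_apply]
    have h := pw_step hX' hZ' (ζ (e (Sum.inr ()))) (hζ _) (hZζ' _)
      (∏ k, (1 + ζ (e (Sum.inl k)) / (X (e (Sum.inl k)) (e (Sum.inl k))).re))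
      (Finset.prod_nonneg fun k _ => by
        have := (Complex.pos_iff.mp (hX.diag_pos (i := e (Sum.inl k)))).1
        have := hζ (e (Sum.inl k))
        positivity)
      (ih (by simp) (hX'.submatrix (e := Sum.inl) Sum.inl_injective)
        (hZ'.submatrix Sum.inl) (fun k => ζ (e (Sum.inl k))) (fun k => hζ _) (by
          intro k
          have := (hZζ' (Sum.inl k)).submatrix Sum.inl
          convert this using 1
          ext i j
          simp [Matrix.single_apply]))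
    have h1 : (X.submatrix e e + Z.submatrix e e).det = (X + Z).det := by
      have h2 : X.submatrix e e + Z.submatrix e e = (X + Z).submatrix e e := rfl
      rw [h2, det_submatrix_equiv_self]
    rw [h1, det_submatrix_equiv_self] at h
    rw [← e.prod_comp, Fintype.prod_sum_type]
    simpa using h

theorem det_add_ge {ι : Type} [Fintype ι] [DecidableEq ι] {X Z : Matrix ι ι ℂ} (hX : X.PosDef)
    (hZ : Z.PosSemidef) (ζ : ι → ℝ) (hζ : ∀ k, 0 ≤ ζ k)
    (hZζ : ∀ k, (Z - Matrix.single k k (ζ k : ℂ)).PosSemidef) :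
    X.det.re * ∏ k, (1 + ζ k / (X k k).re) ≤ (X + Z).det.re :=
  det_add_ge_aux _ rfl hX hZ ζ hζ hZζ

open scoped MatrixOrder in
lemma psd_cs {n : Type} [Fintype n] [DecidableEq n] {M : Matrix n n ℂ} (hM : M.PosSemidef)
    (v : n → ℂ) (k : n) :
    ‖(M *ᵥ v) k‖ ^ 2 ≤ (M k k).re * (star v ⬝ᵥ M *ᵥ v).re := by
  obtain ⟨B, rfl⟩ : ∃ B : Matrix n n ℂ, M = Bᴴ * B := by
    obtain ⟨X, hX, -, h⟩ :=
      CFC.exists_sqrt_of_isSelfAdjoint_of_quasispectrumRestricts hM.isHermitian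
        (QuasispectrumRestricts.nnreal_of_nonneg hM.nonneg)
    exact ⟨X, by rw [← h]; exact congrArg (· * X) hX.star_eq.symm⟩
  have h1 : ((Bᴴ * B) *ᵥ v) k = star (B *ᵥ (Pi.single k 1)) ⬝ᵥ (B *ᵥ v) := by
    rw [← mulVec_mulVec, star_mulVec, ← dotProduct_mulVec]
    simp
  have h2 : (Bᴴ * B) k k = star (B *ᵥ (Pi.single k 1)) ⬝ᵥ (B *ᵥ (Pi.single k 1)) := by
    rw [star_mulVec, ← dotProduct_mulVec, mulVec_mulVec]
    simp
  have h3 : star v ⬝ᵥ (Bᴴ * B) *ᵥ v = star (B *ᵥ v) ⬝ᵥ (B *ᵥ v) := by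
    rw [star_mulVec, ← dotProduct_mulVec, mulVec_mulVec]
  rw [h1, h2, h3]
  have h4 : ∀ a b : n → ℂ, ‖star a ⬝ᵥ b‖ ^ 2 ≤ (star a ⬝ᵥ a).re * (star b ⬝ᵥ b).re := by
    intro a b
    have h5 := norm_inner_le_norm (𝕜 := ℂ) (WithLp.toLp 2 a) (WithLp.toLp 2 b)
    have h6 : ∀ c : n → ℂ, (star c ⬝ᵥ c).re = ‖WithLp.toLp 2 c‖ ^ 2 := by
      intro c
      rw [EuclideanSpace.norm_sq_eq, dotProduct, Complex.re_sum]
      refine Finset.sum_congr rfl fun i _ => ?_
      simp [← Complex.normSq_eq_norm_sq, Complex.normSq_apply]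
    have h7 : star a ⬝ᵥ b = inner ℂ (WithLp.toLp 2 a) (WithLp.toLp 2 b) := by
      simp [PiLp.inner_apply, dotProduct, mul_comm]
    rw [h6, h6, h7, ← mul_pow]
    exact pow_le_pow_left₀ (norm_nonneg _) h5 2
  exact h4 _ _

lemma sum_cs {n : Type} [Fintype n] (a b : n → ℂ) :
    ‖∑ j, a j * b j‖ ^ 2 ≤ (∑ j, ‖a j‖ ^ 2) * ∑ j, ‖b j‖ ^ 2 := by
  calc ‖∑ j, a j * b j‖ ^ 2 ≤ (∑ j, ‖a j‖ * ‖b j‖) ^ 2 := by
        apply pow_le_pow_left₀ (norm_nonneg _)
        refine (norm_sum_le _ _).trans (le_of_eq ?_)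
        simp
    _ ≤ _ := Finset.sum_mul_sq_le_sq_mul_sq _ _ _

lemma pw_scalar {t p S n W α β κ x : ℝ} (ht : 0 < t) (hp : 0 ≤ p) (hS : 0 ≤ S) (hn : 0 ≤ n)
    (hα : 0 ≤ α) (hβ : 0 ≤ β) (hW : 0 ≤ W) (ha : α = p * x) (h : α ≤ κ + β)
    (h1 : κ ^ 2 ≤ p * W) (h2 : β ^ 2 ≤ S * n) :
    t * p / (t + S / p) * x ^ 2 ≤ W + t * n := by
  rcases hp.eq_or_lt with rfl | hp
  · simp only [mul_zero, zero_div, zero_mul]; positivity
  have h3 : t * p / (t + S / p) * x ^ 2 = t * α ^ 2 / (t * p + S) := by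
    rw [ha]
    have : 0 < t * p + S := by positivity
    have h4 : t + S / p = (t * p + S) / p := by field_simp
    rw [h4]
    field_simp
  rw [h3, div_le_iff₀ (by positivity)]
  have h5 : α ^ 2 ≤ (κ + β) ^ 2 := pow_le_pow_left₀ hα h 2
  rcases hS.eq_or_lt with rfl | hS
  · have : β = 0 := by nlinarith
    subst this
    have h6 : α ^ 2 ≤ p * W := by nlinarith
    nlinarith [mul_le_mul_of_nonneg_left h6 ht.le, mul_nonneg ht.le hn,
      mul_nonneg (mul_nonneg ht.le hn) (mul_nonneg ht.le hp.le)]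
  · have h6 : t * p * S * (κ + β) ^ 2 ≤ (t * p + S) * (S * κ ^ 2 + t * p * β ^ 2) := by
      nlinarith [sq_nonneg (S * κ - t * p * β)]
    have h7 : (t * p + S) * (S * κ ^ 2 + t * p * β ^ 2) ≤
        (t * p + S) * (S * (p * W) + t * p * (S * n)) := by
      gcongr
    have h8 : t * p * S * α ^ 2 ≤ t * p * S * (κ + β) ^ 2 := by gcongr
    have h9 : (p * S) * (t * α ^ 2) ≤ (p * S) * ((W + t * n) * (t * p + S)) := by nlinarith
    exact le_of_mul_le_mul_left h9 (by positivity)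

lemma pw_zeta {ι : Type} [Fintype ι] [DecidableEq ι] (p : ι → ℝ) (hp : ∀ k, 0 ≤ p k)
    (Y Q : Matrix ι ι ℂ)
    (hω : (fromBlocks (diagonal fun k => (p k : ℂ)) Y Yᴴ Q).PosSemidef) {t : ℝ} (ht : 0 < t)
    (k : ι) :
    (fromBlocks ((diagonal fun k => (p k : ℂ)) -
      Matrix.single k k ((t * p k / (t + (∑ j, ‖Y k j‖ ^ 2) / p k) : ℝ) : ℂ)) Y Yᴴ
      ((t : ℂ) • (1 : Matrix ι ι ℂ) + Q)).PosSemidef := by
  set ζ : ℝ := t * p k / (t + (∑ j, ‖Y k j‖ ^ 2) / p k) with hζ
  have heq : (fromBlocks ((diagonal fun k => (p k : ℂ)) - Matrix.single k k (ζ : ℂ)) Y Yᴴ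
      ((t : ℂ) • (1 : Matrix ι ι ℂ) + Q)) =
      fromBlocks (diagonal fun k => (p k : ℂ)) Y Yᴴ Q +
      fromBlocks (- Matrix.single k k (ζ : ℂ)) 0 0 ((t : ℂ) • (1 : Matrix ι ι ℂ)) := by
    rw [fromBlocks_add, sub_eq_add_neg, add_zero, add_zero, add_comm Q]
  rw [heq]
  apply PosSemidef.of_dotProduct_mulVec_nonneg
  · apply hω.isHermitian.add
    apply IsHermitian.fromBlocks
    · simp [IsHermitian]
    · simp
    · simp [IsHermitian]
  · intro v
    have hW := hω.dotProduct_mulVec_nonneg v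
    rw [Complex.nonneg_iff] at hW
    have h2 : star v ⬝ᵥ (fromBlocks (- Matrix.single k k (ζ : ℂ)) 0 0
        ((t : ℂ) • (1 : Matrix ι ι ℂ))) *ᵥ v =
        ((- (ζ * ‖v (Sum.inl k)‖ ^ 2) + t * ∑ j, ‖v (Sum.inr j)‖ ^ 2 : ℝ) : ℂ) := by
      rw [fromBlocks_mulVec, zero_mulVec, zero_mulVec, add_zero, zero_add, dotProduct,
        Fintype.sum_sum_type]
      simp only [Sum.elim_inl, Sum.elim_inr, Pi.star_apply, smul_mulVec, one_mulVec, neg_mulVec,
        Pi.neg_apply, Pi.smul_apply, Function.comp_apply, single_mulVec]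
      rw [Finset.sum_eq_single k]
      · push_cast
        rw [Function.update_self, Finset.mul_sum]
        congr 1
        · rw [← Complex.conj_mul', RCLike.star_def]
          ring
        · refine Finset.sum_congr rfl fun j _ => ?_
          rw [← Complex.conj_mul', RCLike.star_def, smul_eq_mul]
          ring
      · intro j _ hj
        rw [Function.update_of_ne hj]
        simp
      · simp
    rw [add_mulVec, dotProduct_add, h2, Complex.nonneg_iff]
    rw [Complex.add_im, Complex.ofReal_im, ← hW.2, Complex.add_re, Complex.ofReal_re]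
    refine ⟨?_, by simp⟩
    have h3 := psd_cs hω v (Sum.inl k)
    have h4 : ((fromBlocks (diagonal fun k => (p k : ℂ)) Y Yᴴ Q) *ᵥ v) (Sum.inl k) =
        p k * v (Sum.inl k) + ∑ j, Y k j * v (Sum.inr j) := by
      rw [fromBlocks_mulVec, Sum.elim_inl, Pi.add_apply, mulVec_diagonal]
      rfl
    rw [h4] at h3
    have h5 := sum_cs (Y k) (fun j => v (Sum.inr j))
    have := pw_scalar (x := ‖v (Sum.inl k)‖) (α := p k * ‖v (Sum.inl k)‖) ht (hp k)
      (by positivity) (by positivity) (mul_nonneg (hp k) (norm_nonneg _))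
      (norm_nonneg _) hW.1 rfl ?_ (by simpa using h3) h5
    · linarith
    · have h6 := norm_sub_le ((p k : ℂ) * v (Sum.inl k) + ∑ j, Y k j * v (Sum.inr j))
        (∑ j, Y k j * v (Sum.inr j))
      rw [add_sub_cancel_right, norm_mul, Complex.norm_real, Real.norm_eq_abs,
        abs_of_nonneg (hp k)] at h6
      exact h6

theorem pointwise {ι : Type} [Fintype ι] [DecidableEq ι] (p : ι → ℝ) (hp : ∀ k, 0 ≤ p k)
    (Y Q R : Matrix ι ι ℂ)
    (hω : (fromBlocks (diagonal fun k => (p k : ℂ)) Y Yᴴ Q).PosSemidef) (hR : R.PosSemidef)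
    {t : ℝ} (ht : 0 < t) :
    ((t : ℂ) • (1 : Matrix ι ι ℂ) + Q).det.re * ((t : ℂ) • (1 : Matrix ι ι ℂ) + R).det.re *
      ∏ k, (1 + t * p k / ((t + (∑ j, ‖Y k j‖ ^ 2) / p k) * (t + (R k k).re))) ≤
    ((t : ℂ) • (1 : Matrix (ι ⊕ ι) (ι ⊕ ι) ℂ) +
      fromBlocks (diagonal (fun k => (p k : ℂ)) + R) Y Yᴴ Q).det.re := by
  have htc : (0 : ℂ) < (t : ℂ) := by exact_mod_cast ht
  have h1 : ((t : ℂ) • (1 : Matrix ι ι ℂ)).PosDef := PosDef.one.smul htc
  have hQ : Q.PosSemidef := hω.submatrix Sum.inr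
  have hT : ((t : ℂ) • (1 : Matrix ι ι ℂ) + Q).PosDef := h1.add_posSemidef hQ
  have hX : ((t : ℂ) • (1 : Matrix ι ι ℂ) + R).PosDef := h1.add_posSemidef hR
  have : Invertible ((t : ℂ) • (1 : Matrix ι ι ℂ) + Q) := hT.isUnit.invertible
  set T := (t : ℂ) • (1 : Matrix ι ι ℂ) + Q with hTdef
  set Z := (diagonal fun k => (p k : ℂ)) - Y * T⁻¹ * Yᴴ with hZ
  have hZk : ∀ k, (Z - Matrix.single k k
      ((t * p k / (t + (∑ j, ‖Y k j‖ ^ 2) / p k) : ℝ) : ℂ)).PosSemidef := by
    intro k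
    have h2 := (PosDef.fromBlocks₂₂ _ Y hT).mp (pw_zeta p hp Y Q hω ht k)
    rwa [hZ, sub_right_comm]
  have hZ0 : Z.PosSemidef := by
    have h3 : (fromBlocks (diagonal fun k => (p k : ℂ)) Y Yᴴ T).PosSemidef := by
      have h4 : fromBlocks (diagonal fun k => (p k : ℂ)) Y Yᴴ T =
          fromBlocks (diagonal fun k => (p k : ℂ)) Y Yᴴ Q +
          fromBlocks 0 0 0 ((t : ℂ) • (1 : Matrix ι ι ℂ)) := by
        rw [fromBlocks_add, add_zero, add_zero, add_zero, hTdef, add_comm Q]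
      rw [h4]
      apply hω.add
      have h5 : fromBlocks 0 0 0 ((t : ℂ) • (1 : Matrix ι ι ℂ)) =
          (diagonal (Sum.elim (fun _ : ι => (0 : ℂ)) (fun _ : ι => (t : ℂ)))) := by
        rw [← fromBlocks_diagonal, smul_one_eq_diagonal, diagonal_zero]
      rw [h5]
      apply PosSemidef.diagonal
      rintro (i | i)
      · simp
      · simpa using ht.le
    exact (PosDef.fromBlocks₂₂ _ Y hT).mp h3
  have h6 := det_add_ge hX hZ0 (fun k => t * p k / (t + (∑ j, ‖Y k j‖ ^ 2) / p k))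
    (fun k => by have := hp k; positivity) hZk
  have h7 : (t : ℂ) • (1 : Matrix (ι ⊕ ι) (ι ⊕ ι) ℂ) +
      fromBlocks (diagonal (fun k => (p k : ℂ)) + R) Y Yᴴ Q =
      fromBlocks ((t : ℂ) • (1 : Matrix ι ι ℂ) + (diagonal (fun k => (p k : ℂ)) + R)) Y Yᴴ T := by
    rw [← fromBlocks_one, fromBlocks_smul, fromBlocks_add, smul_zero, zero_add,
      zero_add]
  rw [h7, det_fromBlocks₂₂, Complex.mul_re]
  have hTd := Complex.pos_iff.mp hT.det_pos
  rw [← hTd.2, zero_mul, sub_zero, mul_assoc]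
  apply mul_le_mul_of_nonneg_left _ hTd.1.le
  have h8 : (t : ℂ) • (1 : Matrix ι ι ℂ) + (diagonal (fun k => (p k : ℂ)) + R) - Y * ⅟T * Yᴴ =
      (t : ℂ) • (1 : Matrix ι ι ℂ) + R + Z := by
    rw [hZ, invOf_eq_nonsing_inv]
    abel
  rw [h8]
  refine le_trans (le_of_eq ?_) h6
  congr 1
  refine Finset.prod_congr rfl fun k _ => ?_
  simp [div_div]

theorem sum_q_le {ι : Type} [Fintype ι] [DecidableEq ι] (p : ι → ℝ) (_hp : ∀ k, 0 ≤ p k)
    (Y Q : Matrix ι ι ℂ)
    (hω : (fromBlocks (diagonal fun k => (p k : ℂ)) Y Yᴴ Q).PosSemidef) :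
    ∑ k, (∑ j, ‖Y k j‖ ^ 2) / p k ≤ Q.trace.re := by
  have h1 : ∀ j, ∑ k, ‖Y k j‖ ^ 2 / p k ≤ (Q j j).re := by
    intro j
    set x : ι → ℂ := fun k => - (Y k j / p k) with hx
    have h := (Complex.nonneg_iff.mp (hω.dotProduct_mulVec_nonneg
      (Sum.elim x (Pi.single j 1)))).1
    rw [fromBlocks_mulVec, Sum.elim_comp_inl, Sum.elim_comp_inr, Function.star_sumElim,
      sumElim_dotProduct_sumElim, mulVec_single_one, mulVec_single_one] at h
    have h2 : (star (Pi.single j 1 : ι → ℂ)) = Pi.single j 1 := by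
      ext i
      by_cases h : i = j
      · subst h; simp
      · simp [h]
    rw [h2, single_one_dotProduct, Pi.add_apply, Complex.add_re, Complex.add_re,
      dotProduct, Complex.re_sum, mulVec, dotProduct, Complex.re_sum, ← add_assoc,
      ← Finset.sum_add_distrib] at h
    have h3 : ∀ k, (star x k * ((diagonal (fun k => (p k : ℂ)) *ᵥ x + Y.col j) k)).re +
        (Yᴴ j k * x k).re = - (‖Y k j‖ ^ 2 / p k) := by
      intro k
      rw [Pi.add_apply, mulVec_diagonal, Pi.star_apply, conjTranspose_apply, hx]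
      have h5 : star (Y k j) * -(Y k j / p k) = ((-(‖Y k j‖ ^ 2 / p k) : ℝ) : ℂ) := by
        push_cast
        rw [← Complex.conj_mul', RCLike.star_def]
        ring
      simp only
      rw [h5, Complex.ofReal_re]
      rcases eq_or_ne (p k) 0 with h0 | h0
      · simp [h0]
      · have h6 : (p k : ℂ) ≠ 0 := by exact_mod_cast h0
        have h7 : (p k : ℂ) * -(Y k j / p k) + Y.col j k = 0 := by
          rw [col_apply]
          field_simp
          ring
        rw [h7]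
        simp
    rw [Finset.sum_congr rfl fun k _ => h3 k, Finset.sum_neg_distrib] at h
    have h4 : (Q.col j j).re = (Q j j).re := rfl
    linarith
  calc ∑ k, (∑ j, ‖Y k j‖ ^ 2) / p k = ∑ j, ∑ k, ‖Y k j‖ ^ 2 / p k := by
        rw [Finset.sum_comm]
        exact Finset.sum_congr rfl fun k _ => Finset.sum_div _ _ _
    _ ≤ ∑ j, (Q j j).re := Finset.sum_le_sum fun j _ => h1 j
    _ = _ := by rw [trace, Complex.re_sum]; rfl

end Vale.Agent.P358
end
end

section

section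

set_option autoImplicit false

namespace Vale.Agent.P358

open Matrix
open scoped ComplexOrder

variable {ι : Type} [Fintype ι] [DecidableEq ι]

theorem det_pos' {κ : Type} [Fintype κ] [DecidableEq κ] {X : Matrix κ κ ℂ} (hX : X.PosSemidef)
    {t : ℝ} (ht : 0 < t) : 0 < ((t : ℂ) • (1 : Matrix κ κ ℂ) + X).det.re := by
  have h1 : ((t : ℂ) • (1 : Matrix κ κ ℂ)).PosDef :=
    PosDef.one.smul (by exact_mod_cast ht)
  have h2 := (h1.add_posSemidef hX).det_pos
  exact (Complex.lt_def.1 h2).1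

theorem posSemidef_block_add {P Y Q R : Matrix ι ι ℂ} (hω : (fromBlocks P Y Yᴴ Q).PosSemidef)
    (hR : R.PosSemidef) : (fromBlocks (P + R) Y Yᴴ Q).PosSemidef := by
  have h1 : (fromBlocks R 0 0 (0 : Matrix ι ι ℂ)).PosSemidef := by
    have h2 := hR.mul_mul_conjTranspose_same (fromRows (1 : Matrix ι ι ℂ) (0 : Matrix ι ι ℂ))
    rw [conjTranspose_fromRows_eq_fromCols_conjTranspose, fromRows_mul, fromRows_mul_fromCols] at h2
    simpa using h2
  have h3 := hω.add h1
  rw [fromBlocks_add] at h3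
  simpa using h3

theorem posSemidef_block_add_right {P Y Q R : Matrix ι ι ℂ}
    (hω : (fromBlocks P Y Yᴴ Q).PosSemidef)
    (hR : R.PosSemidef) : (fromBlocks P Y Yᴴ (Q + R)).PosSemidef := by
  have h1 : (fromBlocks 0 0 0 R : Matrix (ι ⊕ ι) (ι ⊕ ι) ℂ).PosSemidef := by
    have h2 := hR.mul_mul_conjTranspose_same (fromRows (0 : Matrix ι ι ℂ) (1 : Matrix ι ι ℂ))
    rw [conjTranspose_fromRows_eq_fromCols_conjTranspose, fromRows_mul, fromRows_mul_fromCols] at h2
    simpa using h2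
  have h3 := hω.add h1
  rw [fromBlocks_add] at h3
  simpa using h3

/-- The key estimate when the upper left block is diagonal. -/
theorem E0_diag (p : ι → ℝ) (hp : ∀ k, 0 ≤ p k) (Y Q R : Matrix ι ι ℂ)
    (hω : (fromBlocks (diagonal fun k => (p k : ℂ)) Y Yᴴ Q).PosSemidef) (hQ : Q.PosSemidef)
    (hR : R.PosSemidef) :
    (∑ k, Real.negMulLog (p k)) + vN Q + vN R + K (∑ k, p k) R.trace.re Q.trace.re
      - Real.negMulLog (∑ k, p k)
      ≤ vN (fromBlocks (diagonal (fun k => (p k : ℂ)) + R) Y Yᴴ Q) := by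
  set O := fromBlocks (diagonal (fun k => (p k : ℂ)) + R) Y Yᴴ Q with hOdef
  have hO : O.PosSemidef := posSemidef_block_add hω hR
  set q : ι → ℝ := fun k => (∑ j, ‖Y k j‖ ^ 2) / p k with hq
  set r : ι → ℝ := fun k => (R k k).re with hr
  have hq0 : ∀ k, 0 ≤ q k := fun k =>
    div_nonneg (Finset.sum_nonneg fun j _ => by positivity) (hp k)
  have hr0 : ∀ k, 0 ≤ r k := fun k => (Complex.le_def.1 (hR.diag_nonneg (i := k))).1
  have hrsum : ∑ k, r k = R.trace.re := by
    simp [trace, hr]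
  have hqsum : ∑ k, q k ≤ Q.trace.re := sum_q_le p hp Y Q hω
  have H1 := hasEnt_matrix hO
  have H2 := ((hasEnt_matrix hQ).add (hasEnt_matrix hR)).add
    (HasEnt.sum Finset.univ (F := fun k t => Real.log (1 + t * p k / ((t + r k) * (t + q k))))
      (N := fun _ => 0) (τ := p) (h := fun k => K (p k) (r k) (q k))
      (fun k _ => hasEnt_K (hp k) (hr0 k) (hq0 k)))
  have eN : ((Fintype.card ι : ℝ) + (Fintype.card ι : ℝ) + ∑ _k : ι, (0 : ℝ))
      = (Fintype.card (ι ⊕ ι) : ℝ) := by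
    simp [Fintype.card_sum]
  have eT : Q.trace.re + R.trace.re + ∑ k, p k = O.trace.re := by
    rw [hOdef]
    simp only [trace, diag_apply, Fintype.sum_sum_type, fromBlocks_apply₁₁, fromBlocks_apply₂₂,
      Matrix.add_apply, diagonal_apply_eq, Complex.add_re, Complex.re_sum, Complex.ofReal_re,
      Finset.sum_add_distrib]
    ring
  rw [eN, eT] at H2
  have key := H2.mono H1 fun t ht => by
    have a1 := det_pos' hQ ht
    have a2 := det_pos' hR ht
    have a4 : ∀ k, 0 < 1 + t * p k / ((t + r k) * (t + q k)) := fun k => by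
      have := hp k
      have := hr0 k
      have := hq0 k
      positivity
    have a3 := pointwise p hp Y Q R hω hR ht
    have a5 : ∏ k, (1 + t * p k / ((t + (∑ j, ‖Y k j‖ ^ 2) / p k) * (t + (R k k).re)))
        = ∏ k, (1 + t * p k / ((t + r k) * (t + q k))) := by
      refine Finset.prod_congr rfl fun k _ => ?_
      rw [mul_comm (t + r k)]
    rw [a5] at a3
    unfold ld
    rw [← Real.log_prod (fun k _ => (a4 k).ne'), ← Real.log_mul a1.ne' a2.ne',
      ← Real.log_mul (by positivity) (Finset.prod_ne_zero_iff.2 fun k _ => (a4 k).ne')]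
    refine Real.log_le_log ?_ a3
    exact mul_pos (mul_pos a1 a2) (Finset.prod_pos fun k _ => a4 k)
  have sc := scalar_sum Finset.univ p r q (fun k _ => hp k) (fun k _ => hr0 k)
    (fun k _ => hq0 k) hrsum.le hqsum
  linarith

/-- The key estimate. -/
theorem E0 {P Y Q R : Matrix ι ι ℂ} (hω : (fromBlocks P Y Yᴴ Q).PosSemidef)
    (hR : R.PosSemidef) :
    vN P + vN Q + vN R + K P.trace.re R.trace.re Q.trace.re - Real.negMulLog P.trace.re
      ≤ vN (fromBlocks (P + R) Y Yᴴ Q) := by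
  have hP : P.PosSemidef := by
    have := hω.submatrix (Sum.inl : ι → ι ⊕ ι)
    exact this
  have hQ : Q.PosSemidef := by
    have := hω.submatrix (Sum.inr : ι → ι ⊕ ι)
    exact this
  obtain ⟨U, h1, h2, h3⟩ := exists_diag' hP.1
  have hd := hP.eigenvalues_nonneg
  have eT : P.trace.re = ∑ i, hP.1.eigenvalues i := by
    rw [hP.1.trace_eq_sum_eigenvalues]
    simp
  have eS : vN P = ∑ i, Real.negMulLog (hP.1.eigenvalues i) := by
    unfold vN
    rw [dif_pos hP.1]
  rw [eS, eT]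
  set d := hP.1.eigenvalues with hdd
  set V : Matrix (ι ⊕ ι) (ι ⊕ ι) ℂ := fromBlocks Uᴴ 0 0 1 with hV
  have hVV : V * Vᴴ = 1 := by
    rw [hV, fromBlocks_conjTranspose, fromBlocks_multiply]
    simp [h2]
  have hPd : Uᴴ * P * U = diagonal (fun i => (d i : ℂ)) := by
    conv_lhs => rw [h3]
    calc Uᴴ * (U * diagonal (fun i => (d i : ℂ)) * Uᴴ) * U
        = (Uᴴ * U) * diagonal (fun i => (d i : ℂ)) * (Uᴴ * U) := by
          simp only [Matrix.mul_assoc]
      _ = _ := by rw [h2]; simp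
  have c1 : V * fromBlocks P Y Yᴴ Q * Vᴴ
      = fromBlocks (diagonal (fun i => (d i : ℂ))) (Uᴴ * Y) (Uᴴ * Y)ᴴ Q := by
    rw [hV, fromBlocks_conjTranspose, fromBlocks_multiply, fromBlocks_multiply]
    simp [hPd, conjTranspose_mul]
  have c2 : V * fromBlocks (P + R) Y Yᴴ Q * Vᴴ
      = fromBlocks (diagonal (fun i => (d i : ℂ)) + Uᴴ * R * U) (Uᴴ * Y) (Uᴴ * Y)ᴴ Q := by
    rw [hV, fromBlocks_conjTranspose, fromBlocks_multiply, fromBlocks_multiply]
    simp [hPd, conjTranspose_mul, Matrix.mul_add, Matrix.add_mul]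
  have hω' := hω.mul_mul_conjTranspose_same V
  rw [c1] at hω'
  have hR' : (Uᴴ * R * U).PosSemidef := by
    have := hR.mul_mul_conjTranspose_same Uᴴ
    simpa using this
  have h1' : Uᴴ * Uᴴᴴ = 1 := by rw [conjTranspose_conjTranspose]; exact h2
  have h2' : Uᴴᴴ * Uᴴ = 1 := by rw [conjTranspose_conjTranspose]; exact h1
  have vR : vN (Uᴴ * R * U) = vN R := by
    have := vN_conj h1' hR
    simpa using this
  have tR : (Uᴴ * R * U).trace = R.trace := by
    have := trace_conj (U := Uᴴ) h2' R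
    simpa using this
  have main := E0_diag d hd (Uᴴ * Y) Q (Uᴴ * R * U) hω' hQ hR'
  rw [vR, tR, ← c2, vN_conj hVV (posSemidef_block_add hω hR)] at main
  exact main

/-- entropy normalised homogeneously: for `X = w ρ` with `ρ` a state this is `w` times the
entropy of `ρ`. -/
noncomputable def St (X : Matrix ι ι ℂ) : ℝ := vN X - Real.negMulLog X.trace.re

theorem St_smul {X : Matrix ι ι ℂ} (hX : X.PosSemidef) {c : ℝ} (hc : 0 ≤ c) :
    St ((c : ℂ) • X) = c * St X := by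
  unfold St
  rw [vN_smul hX hc, trace_smul]
  have : ((c : ℂ) • X.trace).re = c * X.trace.re := by simp
  rw [this, Real.negMulLog_mul]
  ring

theorem eta2_roots {a b : ℝ} (ha : 0 ≤ a) (hb : 0 ≤ b) :
    eta2 (a + b) (a * b) = Real.negMulLog a + Real.negMulLog b := by
  have h1 := hasEnt_eta2 (T := a + b) (D := a * b) (by positivity) (by positivity)
    (by nlinarith [sq_nonneg (a - b)])
  have h2 := (hasEnt_log ha).add (hasEnt_log hb)
  have e : (1 : ℝ) + 1 = 2 := by norm_num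
  rw [e] at h2
  refine h1.unique h2 fun t ht => ?_
  rw [← Real.log_mul (by positivity) (by positivity)]
  congr 1
  ring

theorem block_smul {P Y Q : Matrix ι ι ℂ} (hω : (fromBlocks P Y Yᴴ Q).PosSemidef)
    {α τ l : ℝ} (hα : 0 ≤ α) (hτ : 0 ≤ τ) (hl : 0 ≤ l) (h : α * τ = l ^ 2) :
    (fromBlocks ((α : ℂ) • P) ((l : ℂ) • Y) ((l : ℂ) • Y)ᴴ ((τ : ℂ) • Q)).PosSemidef := by
  have h1 := hω.mul_mul_conjTranspose_same
    (fromBlocks (((√α : ℝ) : ℂ) • (1 : Matrix ι ι ℂ)) 0 0 (((√τ : ℝ) : ℂ) • (1 : Matrix ι ι ℂ)))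
  rw [fromBlocks_conjTranspose, fromBlocks_multiply, fromBlocks_multiply] at h1
  have e1 : ((√α : ℝ) : ℂ) * ((√α : ℝ) : ℂ) = (α : ℂ) := by
    rw [← Complex.ofReal_mul, Real.mul_self_sqrt hα]
  have e2 : ((√τ : ℝ) : ℂ) * ((√τ : ℝ) : ℂ) = (τ : ℂ) := by
    rw [← Complex.ofReal_mul, Real.mul_self_sqrt hτ]
  have e3 : ((√α : ℝ) : ℂ) * ((√τ : ℝ) : ℂ) = (l : ℂ) := by
    rw [← Complex.ofReal_mul, ← Real.sqrt_mul hα, h, Real.sqrt_sq hl]
  have e4 : ((√τ : ℝ) : ℂ) * ((√α : ℝ) : ℂ) = (l : ℂ) := by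
    rw [mul_comm, e3]
  simp only [conjTranspose_smul, conjTranspose_one, conjTranspose_zero, RCLike.star_def,
    Complex.conj_ofReal, Matrix.smul_mul, Matrix.mul_smul, Matrix.one_mul, Matrix.mul_one,
    Matrix.zero_mul, Matrix.mul_zero, add_zero, zero_add, smul_smul, e1, e2, e3, e4]
    at h1
  simpa using h1

/-- Scaled form of the key estimate. -/
theorem E0_scaled {P Y Q : Matrix ι ι ℂ} (hω : (fromBlocks P Y Yᴴ Q).PosSemidef)
    {α β τ l : ℝ} (hα : 0 ≤ α) (hβ : 0 ≤ β) (hτ : 0 ≤ τ) (hl : 0 ≤ l) (h : α * τ = l ^ 2) :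
    eta2 (α * P.trace.re + β * Q.trace.re + τ * Q.trace.re) (β * Q.trace.re * (τ * Q.trace.re))
      + α * St P + (β + τ) * St Q
      ≤ vN (fromBlocks ((α : ℂ) • P + (β : ℂ) • Q) ((l : ℂ) • Y) ((l : ℂ) • Yᴴ) ((τ : ℂ) • Q)) := by
  have hP : P.PosSemidef := hω.submatrix (Sum.inl : ι → ι ⊕ ι)
  have hQ : Q.PosSemidef := hω.submatrix (Sum.inr : ι → ι ⊕ ι)
  have h1 := block_smul hω hα hτ hl h
  have h2 := E0 h1 (R := (β : ℂ) • Q) (hQ.smul (by exact_mod_cast hβ))
  have e1 : ((l : ℂ) • Y)ᴴ = (l : ℂ) • Yᴴ := by simp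
  rw [e1] at h2
  have t1 : ∀ (c : ℝ) (X : Matrix ι ι ℂ), ((c : ℂ) • X).trace.re = c * X.trace.re := fun c X => by
    simp [trace_smul]
  have s1 := St_smul hP hα
  have s2 := St_smul hQ hβ
  have s3 := St_smul hQ hτ
  unfold St at s1 s2 s3
  rw [t1] at s1 s2 s3
  simp only [t1] at h2
  unfold K at h2
  unfold St
  linarith

/-- Swapped form. -/
theorem E0_scaled' {P Y Q : Matrix ι ι ℂ} (hω : (fromBlocks P Y Yᴴ Q).PosSemidef)
    {α β τ l : ℝ} (hα : 0 ≤ α) (hβ : 0 ≤ β) (hτ : 0 ≤ τ) (hl : 0 ≤ l) (h : α * τ = l ^ 2) :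
    eta2 (α * P.trace.re + β * P.trace.re + τ * Q.trace.re) (α * P.trace.re * (β * P.trace.re))
      + (α + β) * St P + τ * St Q
      ≤ vN (fromBlocks ((α : ℂ) • P) ((l : ℂ) • Y) ((l : ℂ) • Yᴴ) ((β : ℂ) • P + (τ : ℂ) • Q)) := by
  have hs : (fromBlocks Q Yᴴ Yᴴᴴ P).PosSemidef := by
    have := hω.submatrix (Sum.swap : ι ⊕ ι → ι ⊕ ι)
    rw [fromBlocks_submatrix_sum_swap_sum_swap] at this
    rw [conjTranspose_conjTranspose]
    exact this
  have h1 := E0_scaled hs hτ hβ hα hl (by rw [mul_comm]; exact h)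
  rw [conjTranspose_conjTranspose] at h1
  have hP : P.PosSemidef := hω.submatrix (Sum.inl : ι → ι ⊕ ι)
  have hQ : Q.PosSemidef := hω.submatrix (Sum.inr : ι → ι ⊕ ι)
  have hO : (fromBlocks ((τ : ℂ) • Q + (β : ℂ) • P) ((l : ℂ) • Yᴴ) ((l : ℂ) • Y)
      ((α : ℂ) • P)).PosSemidef := by
    have := posSemidef_block_add (block_smul hs hτ hα hl (by rw [mul_comm]; exact h))
      (R := (β : ℂ) • P) (hP.smul (by exact_mod_cast hβ))
    have e1 : ((l : ℂ) • Yᴴ)ᴴ = (l : ℂ) • Y := by simp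
    rw [e1] at this
    exact this
  have h2 := vN_submatrix hO (Equiv.sumComm ι ι)
  have e2 : (fromBlocks ((τ : ℂ) • Q + (β : ℂ) • P) ((l : ℂ) • Yᴴ) ((l : ℂ) • Y)
      ((α : ℂ) • P)).submatrix (Equiv.sumComm ι ι) (Equiv.sumComm ι ι)
      = fromBlocks ((α : ℂ) • P) ((l : ℂ) • Y) ((l : ℂ) • Yᴴ) ((β : ℂ) • P + (τ : ℂ) • Q) := by
    have := fromBlocks_submatrix_sum_swap_sum_swap ((τ : ℂ) • Q + (β : ℂ) • P) ((l : ℂ) • Yᴴ)
      ((l : ℂ) • Y) ((α : ℂ) • P)
    rw [add_comm ((β : ℂ) • P)]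
    exact this
  rw [← e2, h2]
  have e3 : τ * Q.trace.re + β * P.trace.re + α * P.trace.re
      = α * P.trace.re + β * P.trace.re + τ * Q.trace.re := by ring
  have e4 : β * P.trace.re * (α * P.trace.re) = α * P.trace.re * (β * P.trace.re) := by ring
  rw [e3, e4] at h1
  linarith

omit [Fintype ι] [DecidableEq ι] in
theorem off_diag_zero {P Y Q : Matrix ι ι ℂ} (hω : (fromBlocks P Y Yᴴ Q).PosSemidef)
    (h : P = 0 ∨ Q = 0) : Y = 0 := by
  ext i j
  have h1 := (hω.submatrix (![Sum.inl i, Sum.inr j] : Fin 2 → ι ⊕ ι)).det_nonneg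
  rw [det_fin_two] at h1
  simp only [submatrix_apply, cons_val_zero, cons_val_one, fromBlocks_apply₁₁, fromBlocks_apply₁₂,
    fromBlocks_apply₂₁, fromBlocks_apply₂₂, conjTranspose_apply, RCLike.star_def,
    Complex.mul_conj] at h1
  have h2 : P i i * Q j j = 0 := by
    rcases h with h | h <;> simp [h]
  rw [h2, zero_sub, ← Complex.ofReal_neg, Complex.zero_le_real] at h1
  have h3 : Complex.normSq (Y i j) = 0 := le_antisymm (by linarith) (Complex.normSq_nonneg _)
  simpa using Complex.normSq_eq_zero.1 h3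

/-- The determinant of the one-qubit output for input populations `p`, `q` and maximal
coherence. -/
def dt (c1 c2 c3 c4 l p q : ℝ) : ℝ := (c1 * p + c2 * q) * (c3 * p + c4 * q) - l ^ 2 * (p * q)

/-- Homogeneous entropy of the one-qubit output for input populations `p`, `q` and maximal
coherence. -/
noncomputable def gS (c1 c2 c3 c4 l p q : ℝ) : ℝ :=
  eta2 (p + q) (dt c1 c2 c3 c4 l p q) - Real.negMulLog (p + q)

/-- **Main one-step inequality.** -/
theorem Zineq {c1 c2 c3 c4 l : ℝ} (h1 : 0 ≤ c1) (h2 : 0 ≤ c2) (h3 : 0 ≤ c3) (h4 : 0 ≤ c4)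
    (hl : 0 ≤ l) (h13 : c1 + c3 = 1) (h24 : c2 + c4 = 1) (hc : c1 * c4 - l ^ 2 = c2 * c3)
    {P Y Q : Matrix ι ι ℂ} (hω : (fromBlocks P Y Yᴴ Q).PosSemidef) :
    eta2 (P.trace.re + Q.trace.re) (dt c1 c2 c3 c4 l P.trace.re Q.trace.re) + St P + St Q
      ≤ vN (fromBlocks ((c1 : ℂ) • P + (c2 : ℂ) • Q) ((l : ℂ) • Y) ((l : ℂ) • Yᴴ)
        ((c3 : ℂ) • P + (c4 : ℂ) • Q)) := by
  have hP : P.PosSemidef := hω.submatrix (Sum.inl : ι → ι ⊕ ι)
  have hQ : Q.PosSemidef := hω.submatrix (Sum.inr : ι → ι ⊕ ι)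
  have hp0 : 0 ≤ P.trace.re := (Complex.le_def.1 hP.trace_nonneg).1
  have hq0 : 0 ≤ Q.trace.re := (Complex.le_def.1 hQ.trace_nonneg).1
  have trz : ∀ {X : Matrix ι ι ℂ}, X.PosSemidef → X.trace.re = 0 → X = 0 := by
    intro X hX h
    refine hX.trace_eq_zero_iff.1 ?_
    exact Complex.ext h (Complex.le_def.1 hX.trace_nonneg).2.symm
  set p := P.trace.re with hpdef
  set q := Q.trace.re with hqdef
  rcases hp0.eq_or_lt with hp | hp
  · -- `P = 0`
    have hP0 : P = 0 := trz hP hp.symm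
    have hY0 : Y = 0 := off_diag_zero hω (Or.inl hP0)
    have h := E0_scaled hω (le_refl 0) h2 h4 (le_refl 0) (by simp)
    rw [← hpdef, ← hqdef, ← hp] at h
    have hSt : St P = 0 := by rw [hP0]; unfold St; rw [vN_zero]; simp
    have e1 : 0 * 0 + c2 * q + c4 * q = 0 + q := by linear_combination q * h24
    have e2 : c2 * q * (c4 * q) = dt c1 c2 c3 c4 l 0 q := by unfold dt; ring
    rw [e1, e2, hSt, add_comm c2, ← add_comm c2, h24] at h
    rw [← hp, hSt]
    rw [hP0, hY0] at h ⊢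
    simp only [Complex.ofReal_zero, smul_zero, zero_add, conjTranspose_zero] at h ⊢
    linarith
  rcases hq0.eq_or_lt with hq | hq
  · have hQ0 : Q = 0 := trz hQ hq.symm
    have hY0 : Y = 0 := off_diag_zero hω (Or.inr hQ0)
    have h := E0_scaled' hω h1 h3 (le_refl 0) (le_refl 0) (by simp)
    rw [← hpdef, ← hqdef, ← hq] at h
    have hSt : St Q = 0 := by rw [hQ0]; unfold St; rw [vN_zero]; simp
    have e1 : c1 * p + c3 * p + 0 * 0 = p + 0 := by linear_combination p * h13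
    have e2 : c1 * p * (c3 * p) = dt c1 c2 c3 c4 l p 0 := by unfold dt; ring
    rw [e1, e2, hSt, h13] at h
    rw [← hq, hSt]
    rw [hQ0, hY0] at h ⊢
    simp only [Complex.ofReal_zero, smul_zero, add_zero, conjTranspose_zero] at h ⊢
    linarith
  rcases h3.eq_or_lt with h3' | h3'
  · -- `c3 = 0`
    have hc1 : c1 = 1 := by linarith
    have hl4 : 1 * c4 = l ^ 2 := by rw [← h3', hc1] at hc; linarith
    have h := E0_scaled hω zero_le_one h2 h4 hl hl4
    rw [← hpdef, ← hqdef] at h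
    have e1 : 1 * p + c2 * q + c4 * q = p + q := by linear_combination q * h24
    have e2 : c2 * q * (c4 * q) = dt c1 c2 c3 c4 l p q := by
      unfold dt; rw [← hl4, hc1, ← h3']; ring
    rw [e1, e2, h24] at h
    rw [hc1, ← h3'] at h ⊢
    simp only [Complex.ofReal_one, Complex.ofReal_zero, zero_smul, one_smul, zero_add] at h ⊢
    linarith
  rcases h2.eq_or_lt with h2' | h2'
  · have hc4 : c4 = 1 := by linarith
    have hl1 : c1 * 1 = l ^ 2 := by rw [← h2', hc4] at hc; linarith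
    have h := E0_scaled' hω h1 h3 zero_le_one hl hl1
    rw [← hpdef, ← hqdef] at h
    have e1 : c1 * p + c3 * p + 1 * q = p + q := by linear_combination p * h13
    have e2 : c1 * p * (c3 * p) = dt c1 c2 c3 c4 l p q := by
      unfold dt; rw [← hl1, hc4, ← h2']; ring
    rw [e1, e2, h13] at h
    rw [hc4, ← h2'] at h ⊢
    simp only [Complex.ofReal_one, Complex.ofReal_zero, zero_smul, one_smul, add_zero] at h ⊢
    linarith
  -- main case
  set D := dt c1 c2 c3 c4 l p q with hD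
  obtain ⟨x, hx⟩ : ∃ x, x = c1 * p + c2 * q := ⟨_, rfl⟩
  obtain ⟨y, hy⟩ : ∃ y, y = c3 * p + c4 * q := ⟨_, rfl⟩
  have hx0 : 0 < x := by rw [hx]; positivity
  have hy0 : 0 < y := by rw [hy]; positivity
  have hD1 : D = x * y - l ^ 2 * (p * q) := by rw [hD, hx, hy]; rfl
  have hD2 : D = c1 * c3 * p ^ 2 + 2 * (c2 * c3) * (p * q) + c2 * c4 * q ^ 2 := by
    rw [hD1, hx, hy]; linear_combination (p * q) * hc
  have hD0 : 0 < D := by rw [hD2]; positivity
  have hxy : x + y = p + q := by rw [hx, hy]; linear_combination p * h13 + q * h24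
  have i1 : c2 * q * y / D * (l ^ 2 * q / y) + c3 * p * x / D * (x / p) = c1 := by
    field_simp
    rw [hD2, hx]
    linear_combination -(c2 * q ^ 2) * hc
  have i2 : c2 * q * y / D * (D / (q * y)) = c2 := by field_simp
  have i3 : c2 * q * y / D + c3 * p * x / D = 1 := by
    rw [← add_div, div_eq_one_iff_eq hD0.ne', hD2, hx, hy]
    ring
  have i4 : c3 * p * x / D * (D / (p * x)) = c3 := by field_simp
  have i5 : c2 * q * y / D * (y / q) + c3 * p * x / D * (l ^ 2 * p / x) = c4 := by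
    field_simp
    rw [hD2, hy]
    linear_combination -(c3 * p ^ 2) * hc
  have t1 : l ^ 2 * q / y * p + D / (q * y) * q + y / q * q = p + q := by
    rw [← hxy]
    field_simp
    rw [hD1]
    ring
  have t2 : D / (q * y) * q * (y / q * q) = D := by field_simp
  have t3 : x / p * p + D / (p * x) * p + l ^ 2 * p / x * q = p + q := by
    rw [← hxy]
    field_simp
    rw [hD1]
    ring
  have t4 : x / p * p * (D / (p * x) * p) = D := by field_simp
  obtain ⟨m0, hm0⟩ : ∃ m, m = c2 * q * y / D := ⟨_, rfl⟩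
  obtain ⟨m1, hm1⟩ : ∃ m, m = c3 * p * x / D := ⟨_, rfl⟩
  obtain ⟨α, hα⟩ : ∃ m, m = l ^ 2 * q / y := ⟨_, rfl⟩
  obtain ⟨β, hβ⟩ : ∃ m, m = D / (q * y) := ⟨_, rfl⟩
  obtain ⟨τ, hτ⟩ : ∃ m, m = y / q := ⟨_, rfl⟩
  obtain ⟨α', hα'⟩ : ∃ m, m = x / p := ⟨_, rfl⟩
  obtain ⟨β', hβ'⟩ : ∃ m, m = D / (p * x) := ⟨_, rfl⟩
  obtain ⟨τ', hτ'⟩ : ∃ m, m = l ^ 2 * p / x := ⟨_, rfl⟩
  have pm0 : 0 ≤ m0 := by rw [hm0]; positivity
  have pm1 : 0 ≤ m1 := by rw [hm1]; positivity
  have pα : 0 ≤ α := by rw [hα]; positivity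
  have pβ : 0 ≤ β := by rw [hβ]; positivity
  have pτ : 0 ≤ τ := by rw [hτ]; positivity
  have pα' : 0 ≤ α' := by rw [hα']; positivity
  have pβ' : 0 ≤ β' := by rw [hβ']; positivity
  have pτ' : 0 ≤ τ' := by rw [hτ']; positivity
  have l1 : α * τ = l ^ 2 := by rw [hα, hτ]; field_simp
  have l2 : α' * τ' = l ^ 2 := by rw [hα', hτ']; field_simp
  rw [← hm0, ← hm1, ← hα, ← hα'] at i1
  rw [← hm0, ← hβ] at i2
  rw [← hm0, ← hm1] at i3
  rw [← hm1, ← hβ'] at i4
  rw [← hm0, ← hm1, ← hτ, ← hτ'] at i5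
  rw [← hα, ← hβ, ← hτ] at t1
  rw [← hβ, ← hτ] at t2
  rw [← hα', ← hβ', ← hτ'] at t3
  rw [← hα', ← hβ'] at t4
  clear hm0 hm1 hα hβ hτ hα' hβ' hτ'
  have k0 := E0_scaled hω pα pβ pτ hl l1
  have k1 := E0_scaled' hω pα' pβ' pτ' hl l2
  rw [← hpdef, ← hqdef, t1, t2] at k0
  rw [← hpdef, ← hqdef, t3, t4] at k1
  have q0 : (fromBlocks ((α : ℂ) • P + (β : ℂ) • Q) ((l : ℂ) • Y) ((l : ℂ) • Yᴴ)
      ((τ : ℂ) • Q)).PosSemidef := by
    have := posSemidef_block_add (block_smul hω pα pτ hl l1) (R := (β : ℂ) • Q)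
      (hQ.smul (by exact_mod_cast pβ))
    have e1 : ((l : ℂ) • Y)ᴴ = (l : ℂ) • Yᴴ := by simp
    rw [e1] at this
    exact this
  have q1 : (fromBlocks ((α' : ℂ) • P) ((l : ℂ) • Y) ((l : ℂ) • Yᴴ)
      ((β' : ℂ) • P + (τ' : ℂ) • Q)).PosSemidef := by
    have := posSemidef_block_add_right (block_smul hω pα' pτ' hl l2) (R := (β' : ℂ) • P)
      (hP.smul (by exact_mod_cast pβ'))
    have e1 : ((l : ℂ) • Y)ᴴ = (l : ℂ) • Yᴴ := by simp
    rw [e1, add_comm] at this
    exact this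
  have hconc := vN_concave q0 q1 pm0 pm1 i3
  have hmat : (m0 : ℂ) • fromBlocks ((α : ℂ) • P + (β : ℂ) • Q) ((l : ℂ) • Y) ((l : ℂ) • Yᴴ)
        ((τ : ℂ) • Q)
      + (m1 : ℂ) • fromBlocks ((α' : ℂ) • P) ((l : ℂ) • Y) ((l : ℂ) • Yᴴ)
        ((β' : ℂ) • P + (τ' : ℂ) • Q)
      = fromBlocks ((c1 : ℂ) • P + (c2 : ℂ) • Q) ((l : ℂ) • Y) ((l : ℂ) • Yᴴ)
        ((c3 : ℂ) • P + (c4 : ℂ) • Q) := by
    rw [fromBlocks_smul, fromBlocks_smul, fromBlocks_add]
    have e3 : (m0 : ℂ) + (m1 : ℂ) = 1 := by rw [← Complex.ofReal_add, i3]; simp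
    rw [← i1, ← i2, ← i4, ← i5]
    congr 1
    · push_cast
      module
    · rw [← add_smul, e3, one_smul]
    · rw [← add_smul, e3, one_smul]
    · push_cast
      module
  rw [hmat] at hconc
  have w1 := mul_le_mul_of_nonneg_left k0 pm0
  have w2 := mul_le_mul_of_nonneg_left k1 pm1
  refine le_trans (le_of_eq ?_) ((add_le_add w1 w2).trans hconc)
  linear_combination (-(eta2 (p + q) D)) * i3 - St P * (h13 + i1 + i4) - St Q * (h24 + i2 + i5)

end Vale.Agent.P358
end
end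

section

section

set_option autoImplicit false

namespace Vale.Agent.P358

open Real

theorem log_sub_ge {s : ℝ} (h0 : 0 < s) (h1 : s < 1) : 2 * s ≤ log (1 + s) - log (1 - s) := by
  have h2 : 0 < 1 - s := by linarith
  have h3 : 0 ≤ 2 * s / (1 - s) := by positivity
  have h4 := Real.le_log_one_add_of_nonneg h3
  have h5 : 1 + 2 * s / (1 - s) = (1 + s) / (1 - s) := by
    field_simp
    ring
  have h6 : 2 * (2 * s / (1 - s)) / (2 * s / (1 - s) + 2) = 2 * s := by
    field_simp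
    ring
  rw [h5, h6, Real.log_div (by positivity) h2.ne'] at h4
  exact h4

theorem phi_antitone : AntitoneOn (fun s : ℝ => √(1 - s ^ 2) * (log (1 + s) - log (1 - s)) / s)
    (Set.Ioo 0 1) := by
  have hd : ∀ s ∈ Set.Ioo (0 : ℝ) 1,
      HasDerivAt (fun s : ℝ => √(1 - s ^ 2) * (log (1 + s) - log (1 - s)) / s)
      ((2 * s - (log (1 + s) - log (1 - s))) / (√(1 - s ^ 2) * s ^ 2)) s := by
    rintro s ⟨h0, h1⟩
    have hs : 0 < 1 - s ^ 2 := by nlinarith
    have d1 : HasDerivAt (fun s : ℝ => 1 - s ^ 2) (-(2 * s)) s := by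
      have := ((hasDerivAt_id s).pow 2).const_sub 1
      refine this.congr_deriv ?_
      simp
    have d2 := d1.sqrt hs.ne'
    have d3 : HasDerivAt (fun s : ℝ => log (1 + s)) (1 / (1 + s)) s :=
      ((hasDerivAt_id s).const_add 1).log (by simp; positivity)
    have d4 : HasDerivAt (fun s : ℝ => log (1 - s)) (-1 / (1 - s)) s :=
      ((hasDerivAt_id s).const_sub 1).log (by simp; linarith)
    have d5 := (d2.mul (d3.sub d4)).div (hasDerivAt_id s) h0.ne'
    refine d5.congr_deriv ?_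
    have hr : 0 < √(1 - s ^ 2) := Real.sqrt_pos.2 hs
    have hr2 : √(1 - s ^ 2) ^ 2 = 1 - s ^ 2 := Real.sq_sqrt hs.le
    have h2 : 1 - s ≠ 0 := by linarith
    simp only [id, Pi.mul_apply, Pi.sub_apply]
    set r := √(1 - s ^ 2) with hrdef
    set L := log (1 + s) - log (1 - s)
    have h3 : 1 / (1 + s) - -1 / (1 - s) = 2 / r ^ 2 := by
      rw [hr2]
      have : 1 - s ^ 2 = (1 + s) * (1 - s) := by ring
      rw [this]
      field_simp
      ring
    rw [h3]
    field_simp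
    linear_combination (-L) * hr2
  apply antitoneOn_of_deriv_nonpos (convex_Ioo 0 1)
  · exact fun s hs => (hd s hs).continuousAt.continuousWithinAt
  · rw [interior_Ioo]
    exact fun s hs => (hd s hs).differentiableAt.differentiableWithinAt
  · rw [interior_Ioo]
    intro s hs
    rw [(hd s hs).deriv]
    have := log_sub_ge hs.1 hs.2
    apply div_nonpos_of_nonpos_of_nonneg
    · linarith
    · positivity

/-- `E C = h((1 + √(1 - C²)) / 2)`. -/
noncomputable def EF (C : ℝ) : ℝ :=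
  negMulLog ((1 + √(1 - C ^ 2)) / 2) + negMulLog ((1 - √(1 - C ^ 2)) / 2)

theorem EF_deriv {C : ℝ} (h0 : 0 < C) (h1 : C < 1) :
    HasDerivAt EF (√(1 - √(1 - C ^ 2) ^ 2) *
      (log (1 + √(1 - C ^ 2)) - log (1 - √(1 - C ^ 2))) / √(1 - C ^ 2) / 2) C := by
  have hs : 0 < 1 - C ^ 2 := by nlinarith
  have d1 : HasDerivAt (fun s : ℝ => 1 - s ^ 2) (-(2 * C)) C := by
    have := ((hasDerivAt_id C).pow 2).const_sub 1
    refine this.congr_deriv ?_
    simp
  have d2 := d1.sqrt hs.ne'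
  have hr : 0 < √(1 - C ^ 2) := Real.sqrt_pos.2 hs
  have hr2 : √(1 - C ^ 2) ^ 2 = 1 - C ^ 2 := Real.sq_sqrt hs.le
  have hr1 : √(1 - C ^ 2) < 1 := by
    rw [Real.sqrt_lt' one_pos]
    nlinarith
  have d3 : HasDerivAt (fun C : ℝ => (1 + √(1 - C ^ 2)) / 2)
      (-(2 * C) / (2 * √(1 - C ^ 2)) / 2) C := (d2.const_add 1).div_const 2
  have d4 : HasDerivAt (fun C : ℝ => (1 - √(1 - C ^ 2)) / 2)
      (-(-(2 * C) / (2 * √(1 - C ^ 2))) / 2) C := (d2.const_sub 1).div_const 2
  have d5 := (Real.hasDerivAt_negMulLog (x := (1 + √(1 - C ^ 2)) / 2) (by positivity)).comp C d3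
  have d6 := (Real.hasDerivAt_negMulLog (x := (1 - √(1 - C ^ 2)) / 2)
    (by have : 0 < 1 - √(1 - C ^ 2) := by linarith
        positivity)).comp C d4
  refine (d5.add d6).congr_deriv ?_
  have h3 : √(1 - √(1 - C ^ 2) ^ 2) = C := by
    rw [hr2]
    have : 1 - (1 - C ^ 2) = C ^ 2 := by ring
    rw [this, Real.sqrt_sq h0.le]
  rw [h3, Real.log_div (by positivity) two_ne_zero, Real.log_div (by linarith) two_ne_zero]
  field_simp
  ring

theorem EF_convex : ConvexOn ℝ (Set.Icc 0 1) EF := by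
  apply MonotoneOn.convexOn_of_deriv (convex_Icc 0 1)
  · apply Continuous.continuousOn
    unfold EF
    fun_prop
  · rw [interior_Icc]
    exact fun C hC => (EF_deriv hC.1 hC.2).differentiableAt.differentiableWithinAt
  · rw [interior_Icc]
    intro C hC C' hC' h
    rw [(EF_deriv hC.1 hC.2).deriv, (EF_deriv hC'.1 hC'.2).deriv]
    have hmem : ∀ C ∈ Set.Ioo (0 : ℝ) 1, √(1 - C ^ 2) ∈ Set.Ioo (0 : ℝ) 1 := by
      rintro C ⟨h0, h1⟩
      refine ⟨Real.sqrt_pos.2 (by nlinarith), ?_⟩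
      rw [Real.sqrt_lt' one_pos]
      nlinarith
    have h1 : √(1 - C' ^ 2) ≤ √(1 - C ^ 2) := by
      apply Real.sqrt_le_sqrt
      have := hC.1
      nlinarith
    have h2 := phi_antitone (hmem C' hC') (hmem C hC) h1
    simp only at h2
    linarith

theorem EF_eq (C : ℝ) : EF C = eta2 1 (C ^ 2 / 4) := by
  unfold EF eta2
  have : (1 : ℝ) ^ 2 - 4 * (C ^ 2 / 4) = 1 - C ^ 2 := by ring
  rw [this]

theorem eta2_mono {T D D' : ℝ} (hT : 0 ≤ T) (hD : 0 ≤ D) (h : D ≤ D') (h' : 4 * D' ≤ T ^ 2) :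
    eta2 T D ≤ eta2 T D' := by
  refine (hasEnt_eta2 hT hD (by linarith)).mono (hasEnt_eta2 hT (hD.trans h) h') fun t ht => ?_
  apply Real.log_le_log (by positivity)
  linarith

/-- The quadratic form. -/
def qform (α β δ p q : ℝ) : ℝ := α * p ^ 2 + 2 * β * (p * q) + δ * q ^ 2

theorem qform_nonneg {α β δ p q : ℝ} (hα : 0 ≤ α) (hβ : 0 ≤ β) (hδ : 0 ≤ δ) (hp : 0 ≤ p)
    (hq : 0 ≤ q) : 0 ≤ qform α β δ p q := by
  unfold qform
  positivity

theorem sqrt_qform_add {α β δ p q p' q' : ℝ} (hα : 0 ≤ α) (hβ : 0 ≤ β) (hδ : 0 ≤ δ)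
    (h : β ^ 2 ≤ α * δ) (hp : 0 ≤ p) (hq : 0 ≤ q) (hp' : 0 ≤ p') (hq' : 0 ≤ q') :
    √(qform α β δ (p + p') (q + q')) ≤ √(qform α β δ p q) + √(qform α β δ p' q') := by
  have h1 := qform_nonneg hα hβ hδ hp hq
  have h2 := qform_nonneg hα hβ hδ hp' hq'
  apply Real.sqrt_le_iff.2 ⟨by positivity, ?_⟩
  rw [add_sq, Real.sq_sqrt h1, Real.sq_sqrt h2]
  have h3 : α * (p * p') + β * (p * q' + p' * q) + δ * (q * q') ≤
      √(qform α β δ p q) * √(qform α β δ p' q') := by
    rw [← Real.sqrt_mul h1]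
    apply Real.le_sqrt_of_sq_le
    have : qform α β δ p q * qform α β δ p' q' -
        (α * (p * p') + β * (p * q' + p' * q) + δ * (q * q')) ^ 2 =
        (α * δ - β ^ 2) * (p * q' - p' * q) ^ 2 := by
      unfold qform
      ring
    have h4 : 0 ≤ (α * δ - β ^ 2) * (p * q' - p' * q) ^ 2 :=
      mul_nonneg (by linarith) (sq_nonneg _)
    linarith
  have h4 : qform α β δ (p + p') (q + q') = qform α β δ p q + qform α β δ p' q' +
      2 * (α * (p * p') + β * (p * q' + p' * q) + δ * (q * q')) := by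
    unfold qform
    ring
  linarith

theorem sqrt_qform_sum {ι : Type*} (s : Finset ι) {α β δ : ℝ} (p q : ι → ℝ) (hα : 0 ≤ α)
    (hβ : 0 ≤ β) (hδ : 0 ≤ δ) (h : β ^ 2 ≤ α * δ) (hp : ∀ i ∈ s, 0 ≤ p i)
    (hq : ∀ i ∈ s, 0 ≤ q i) :
    √(qform α β δ (∑ i ∈ s, p i) (∑ i ∈ s, q i)) ≤ ∑ i ∈ s, √(qform α β δ (p i) (q i)) := by
  classical
  induction s using Finset.induction_on with
  | empty => simp [qform]
  | insert a s ha ih =>
    simp only [Finset.sum_insert ha]
    have hp' := fun i hi => hp i (Finset.mem_insert_of_mem hi)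
    have hq' := fun i hi => hq i (Finset.mem_insert_of_mem hi)
    refine (sqrt_qform_add hα hβ hδ h (hp a (Finset.mem_insert_self a s))
      (hq a (Finset.mem_insert_self a s)) (Finset.sum_nonneg hp') (Finset.sum_nonneg hq')).trans ?_
    have := ih hp' hq'
    linarith

/-- Jensen for the single-letter function. -/
theorem eta2_jensen {ι : Type*} (s : Finset ι) {α β δ : ℝ} (p q : ι → ℝ) (hα : 0 ≤ α)
    (hβ : 0 ≤ β) (hδ : 0 ≤ δ) (h : β ^ 2 ≤ α * δ) (hα4 : 4 * α ≤ 1) (hβ4 : 4 * β ≤ 1)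
    (hδ4 : 4 * δ ≤ 1) (hp : ∀ i ∈ s, 0 ≤ p i) (hq : ∀ i ∈ s, 0 ≤ q i)
    (hsum : ∑ i ∈ s, (p i + q i) = 1) :
    eta2 1 (qform α β δ (∑ i ∈ s, p i) (∑ i ∈ s, q i)) ≤
      ∑ i ∈ s, (eta2 (p i + q i) (qform α β δ (p i) (q i)) - negMulLog (p i + q i)) := by
  have hDn : ∀ i ∈ s, 0 ≤ qform α β δ (p i) (q i) := fun i hi =>
    qform_nonneg hα hβ hδ (hp i hi) (hq i hi)
  have hle : ∀ i ∈ s, 2 * √(qform α β δ (p i) (q i)) ≤ p i + q i := by
    intro i hi
    have h1 := hp i hi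
    have h2 := hq i hi
    have h3 : √(qform α β δ (p i) (q i)) ≤ (p i + q i) / 2 := by
      apply Real.sqrt_le_iff.2 ⟨by positivity, ?_⟩
      unfold qform
      nlinarith [mul_nonneg h1 h2, sq_nonneg (p i), sq_nonneg (q i),
        mul_le_mul_of_nonneg_right hα4 (sq_nonneg (p i)),
        mul_le_mul_of_nonneg_right hδ4 (sq_nonneg (q i)),
        mul_le_mul_of_nonneg_right hβ4 (mul_nonneg h1 h2)]
    linarith
  have hterm : ∀ i ∈ s, eta2 (p i + q i) (qform α β δ (p i) (q i)) - negMulLog (p i + q i) =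
      (p i + q i) * EF (2 * √(qform α β δ (p i) (q i)) / (p i + q i)) := by
    intro i hi
    have h1 := hp i hi
    have h2 := hq i hi
    rcases (add_nonneg h1 h2).eq_or_lt with h0 | h0
    · have h3 : p i = 0 := by linarith
      have h4 : q i = 0 := by linarith
      simp [h3, h4, qform, eta2]
    · rw [EF_eq]
      have h3 : (2 * √(qform α β δ (p i) (q i)) / (p i + q i)) ^ 2 / 4 =
          qform α β δ (p i) (q i) / (p i + q i) ^ 2 := by
        rw [div_pow, mul_pow, Real.sq_sqrt (hDn i hi)]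
        ring
      rw [h3]
      have h4 := eta2_scale (T := 1) (D := qform α β δ (p i) (q i) / (p i + q i) ^ 2) h0.le
      have h5 : (p i + q i) ^ 2 * (qform α β δ (p i) (q i) / (p i + q i) ^ 2) =
          qform α β δ (p i) (q i) := by
        field_simp
      rw [h5, mul_one, one_mul] at h4
      linarith
  rw [Finset.sum_congr rfl hterm]
  have hJ := EF_convex.map_sum_le (t := s) (w := fun i => p i + q i)
    (p := fun i => 2 * √(qform α β δ (p i) (q i)) / (p i + q i))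
    (fun i hi => add_nonneg (hp i hi) (hq i hi)) hsum (by
      intro i hi
      refine ⟨div_nonneg (by positivity) (add_nonneg (hp i hi) (hq i hi)), ?_⟩
      exact div_le_one_of_le₀ (hle i hi) (add_nonneg (hp i hi) (hq i hi)))
  simp only [smul_eq_mul] at hJ
  refine le_trans ?_ hJ
  have hS : ∑ i ∈ s, (p i + q i) * (2 * √(qform α β δ (p i) (q i)) / (p i + q i)) =
      2 * ∑ i ∈ s, √(qform α β δ (p i) (q i)) := by
    rw [Finset.mul_sum]
    refine Finset.sum_congr rfl fun i hi => ?_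
    have h1 := hp i hi
    have h2 := hq i hi
    rcases (add_nonneg h1 h2).eq_or_lt with h0 | h0
    · have h3 : p i = 0 := by linarith
      have h4 : q i = 0 := by linarith
      simp [h3, h4, qform]
    · field_simp
  rw [hS, EF_eq]
  have h5 := sqrt_qform_sum s p q hα hβ hδ h hp hq
  have h6 : 2 * ∑ i ∈ s, √(qform α β δ (p i) (q i)) ≤ 1 := by
    rw [← hsum, Finset.mul_sum]
    exact Finset.sum_le_sum hle
  have h7 : 0 ≤ ∑ i ∈ s, √(qform α β δ (p i) (q i)) :=
    Finset.sum_nonneg fun i _ => Real.sqrt_nonneg _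
  have h8 : 0 ≤ qform α β δ (∑ i ∈ s, p i) (∑ i ∈ s, q i) :=
    qform_nonneg hα hβ hδ (Finset.sum_nonneg hp) (Finset.sum_nonneg hq)
  apply eta2_mono zero_le_one h8
  · rw [← Real.sq_sqrt h8]
    have h9 := pow_le_pow_left₀ (Real.sqrt_nonneg _) h5 2
    calc _ ≤ _ := h9
      _ = _ := by ring
  · nlinarith

end Vale.Agent.P358
end
end

section

section

set_option autoImplicit false

/-!
Entropy through the characteristic polynomial, product states and product ensembles.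
-/

namespace Vale.Agent.P358

open Matrix
open scoped ComplexOrder

variable {ι κ : Type} [Fintype ι] [DecidableEq ι] [Fintype κ] [DecidableEq κ]

/-! ### Entropy and the characteristic polynomial -/

theorem entropy_eq_roots {A : Matrix ι ι ℂ} (hA : A.IsHermitian) :
    entropy A = (A.charpoly.roots.map (fun z => -(z.re * Real.logb 2 z.re))).sum := by
  rw [entropy, dif_pos hA, hA.roots_charpoly_eq_eigenvalues, Multiset.map_map]
  rfl

theorem entropy_eq_of_charpoly {A : Matrix ι ι ℂ} {B : Matrix κ κ ℂ} (hA : A.IsHermitian)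
    (hB : B.IsHermitian) (h : A.charpoly = B.charpoly) : entropy A = entropy B := by
  rw [entropy_eq_roots hA, entropy_eq_roots hB, h]

/-- Entropy is invariant under relabelling. -/
theorem entropy_submatrix (e : κ ≃ ι) (A : Matrix ι ι ℂ) :
    entropy (A.submatrix e e) = entropy A := by
  have hiff : (A.submatrix e e).IsHermitian ↔ A.IsHermitian := by
    constructor
    · intro h
      have h2 := h.submatrix e.symm
      simpa using h2
    · intro h
      exact h.submatrix e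
  by_cases hA : A.IsHermitian
  · refine entropy_eq_of_charpoly (hiff.2 hA) hA ?_
    have := charpoly_reindex e.symm A
    simpa [reindex_apply] using this
  · rw [entropy, dif_neg (fun h => hA (hiff.1 h)), entropy, dif_neg hA]

/-- Entropy from any diagonalization. -/
theorem entropy_of_conj {A U : Matrix ι ι ℂ} (hU : Uᴴ * U = 1) (d : ι → ℝ)
    (h : A = U * diagonal (fun i => (d i : ℂ)) * Uᴴ) :
    entropy A = ∑ i, -(d i * Real.logb 2 (d i)) := by
  have hD : (diagonal (fun i => (d i : ℂ))).IsHermitian := by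
    rw [Matrix.IsHermitian, diagonal_conjTranspose]
    congr 1
    funext i
    simp
  have hA : A.IsHermitian := by
    rw [h]
    exact isHermitian_mul_mul_conjTranspose U hD
  have hchar : A.charpoly = (diagonal (fun i => (d i : ℂ))).charpoly := by
    rw [h, charpoly_mul_comm, ← Matrix.mul_assoc, hU, Matrix.one_mul]
  rw [entropy_eq_roots hA, hchar, charpoly_diagonal, Polynomial.roots_prod]
  · simp only [Polynomial.roots_X_sub_C, Multiset.bind_singleton, Multiset.map_map,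
      Finset.sum_map_val]
    simp
  · exact Finset.prod_ne_zero_iff.2 fun i _ => Polynomial.X_sub_C_ne_zero _

/-- The spectral theorem with an explicit unitary matrix. -/
theorem exists_unitary_diag {A : Matrix ι ι ℂ} (hA : A.IsHermitian) :
    ∃ (U : Matrix ι ι ℂ), Uᴴ * U = 1 ∧ U * Uᴴ = 1 ∧
      A = U * diagonal (fun i => (hA.eigenvalues i : ℂ)) * Uᴴ := by
  refine ⟨hA.eigenvectorUnitary, ?_, ?_, ?_⟩
  · exact Unitary.coe_star_mul_self hA.eigenvectorUnitary
  · exact Unitary.coe_mul_star_self hA.eigenvectorUnitary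
  · exact hA.spectral_theorem

theorem exists_sqrt {A : Matrix ι ι ℂ} (hA : A.PosSemidef) : ∃ B : Matrix ι ι ℂ, A = Bᴴ * B := by
  obtain ⟨U, _, _, h⟩ := exists_unitary_diag hA.1
  refine ⟨diagonal (fun i => ((Real.sqrt (hA.1.eigenvalues i) : ℝ) : ℂ)) * Uᴴ, ?_⟩
  rw [conjTranspose_mul, conjTranspose_conjTranspose, diagonal_conjTranspose]
  conv_lhs => rw [h]
  rw [Matrix.mul_assoc, Matrix.mul_assoc, ← Matrix.mul_assoc (diagonal _) (diagonal _) Uᴴ,
    diagonal_mul_diagonal]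
  congr 2
  refine congrArg _ (funext fun i => ?_)
  have h0 := hA.eigenvalues_nonneg i
  simp only [Pi.star_apply, RCLike.star_def, Complex.conj_ofReal]
  rw [← Complex.ofReal_mul, Real.mul_self_sqrt h0]

/-! ### Product matrices -/

/-- The tensor product of a family of matrices. -/
noncomputable def prodM {n : ℕ} (σ : Fin n → Matrix ι ι ℂ) :
    Matrix (Fin n → ι) (Fin n → ι) ℂ :=
  Matrix.of fun x x' => ∏ i, σ i (x i) (x' i)

theorem prodM_apply {n : ℕ} (σ : Fin n → Matrix ι ι ℂ) (x x' : Fin n → ι) :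
    prodM σ x x' = ∏ i, σ i (x i) (x' i) := rfl

theorem prodM_mul {n : ℕ} (A B : Fin n → Matrix ι ι ℂ) :
    prodM A * prodM B = prodM (fun i => A i * B i) := by
  ext x z
  rw [Matrix.mul_apply, prodM_apply]
  simp only [prodM_apply, Matrix.mul_apply]
  rw [Finset.prod_univ_sum, Fintype.piFinset_univ]
  refine Finset.sum_congr rfl fun y _ => ?_
  rw [Finset.prod_mul_distrib]

theorem prodM_conjTranspose {n : ℕ} (A : Fin n → Matrix ι ι ℂ) :
    (prodM A)ᴴ = prodM (fun i => (A i)ᴴ) := by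
  ext x z
  simp [prodM_apply, conjTranspose_apply]

theorem prodM_diagonal {n : ℕ} (d : Fin n → ι → ℂ) :
    prodM (fun i => diagonal (d i)) = diagonal (fun x => ∏ i, d i (x i)) := by
  ext x z
  rw [prodM_apply]
  by_cases hxz : x = z
  · subst hxz
    simp
  · rw [diagonal_apply_ne _ hxz]
    obtain ⟨i, hi⟩ := Function.ne_iff.1 hxz
    exact Finset.prod_eq_zero (Finset.mem_univ i) (diagonal_apply_ne _ hi)

theorem prodM_one {n : ℕ} : prodM (fun _ : Fin n => (1 : Matrix ι ι ℂ)) = 1 := by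
  have h := prodM_diagonal (fun (_ : Fin n) (_ : ι) => (1 : ℂ))
  simpa using h

theorem trace_prodM {n : ℕ} (σ : Fin n → Matrix ι ι ℂ) :
    (prodM σ).trace = ∏ i, (σ i).trace := by
  simp only [Matrix.trace, diag_apply, prodM_apply]
  rw [Finset.prod_univ_sum, Fintype.piFinset_univ]

theorem prodM_posSemidef {n : ℕ} {σ : Fin n → Matrix ι ι ℂ} (h : ∀ i, (σ i).PosSemidef) :
    (prodM σ).PosSemidef := by
  choose B hB using fun i => exists_sqrt (h i)
  have e : prodM σ = (prodM B)ᴴ * prodM B := by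
    rw [prodM_conjTranspose, prodM_mul]
    congr 1
    funext i
    exact hB i
  rw [e]
  exact posSemidef_conjTranspose_mul_self _

/-- **(C3a)** -/
theorem prodM_isState {n : ℕ} {σ : Fin n → Matrix ι ι ℂ} (h : ∀ i, IsState (σ i)) :
    IsState (prodM σ) := by
  refine ⟨prodM_posSemidef fun i => (h i).1, ?_⟩
  rw [trace_prodM]
  exact Finset.prod_eq_one fun i _ => (h i).2

/-- The eigenvalues of a state sum to one. -/
theorem sum_eigenvalues {A : Matrix ι ι ℂ} (hA : A.IsHermitian) (h1 : A.trace = 1) :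
    ∑ i, hA.eigenvalues i = 1 := by
  have h := hA.trace_eq_sum_eigenvalues
  rw [h1] at h
  have h2 : ((∑ i, hA.eigenvalues i : ℝ) : ℂ) = 1 := by
    rw [h]; push_cast; rfl
  exact_mod_cast h2

/-- Additivity of the Shannon entropy for product distributions. -/
theorem shannon_prod {n : ℕ} (d : Fin n → ι → ℝ) (hd : ∀ i, ∑ j, d i j = 1) :
    ∑ x : Fin n → ι, -((∏ i, d i (x i)) * Real.logb 2 (∏ i, d i (x i))) =
      ∑ i, ∑ j, -(d i j * Real.logb 2 (d i j)) := by
  have h1 : ∀ x : Fin n → ι, -((∏ i, d i (x i)) * Real.logb 2 (∏ i, d i (x i))) =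
      ∑ k, ∏ i, (if i = k then -(d i (x i) * Real.logb 2 (d i (x i))) else d i (x i)) := by
    intro x
    have h2 : ∀ k, ∏ i, (if i = k then -(d i (x i) * Real.logb 2 (d i (x i))) else d i (x i)) =
        -((∏ i, d i (x i)) * Real.logb 2 (d k (x k))) := by
      intro k
      have h5 : ∀ i, (if i = k then -(d i (x i) * Real.logb 2 (d i (x i))) else d i (x i)) =
          d i (x i) * (if i = k then -Real.logb 2 (d i (x i)) else 1) := by
        intro i
        split_ifs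
        · ring
        · ring
      simp_rw [h5]
      rw [Finset.prod_mul_distrib, Finset.prod_ite_eq' Finset.univ k]
      simp
    simp_rw [h2]
    rw [Finset.sum_neg_distrib, ← Finset.mul_sum]
    by_cases h0 : ∃ k, d k (x k) = 0
    · obtain ⟨k, hk⟩ := h0
      rw [Finset.prod_eq_zero (Finset.mem_univ k) hk]
      simp
    · push Not at h0
      rw [Real.logb_prod _ _ fun i _ => h0 i]
  simp_rw [h1]
  rw [Finset.sum_comm]
  refine Finset.sum_congr rfl fun k _ => ?_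
  have h3 := Finset.prod_univ_sum (fun _ : Fin n => (Finset.univ : Finset ι))
    (fun i j => if i = k then -(d i j * Real.logb 2 (d i j)) else d i j)
  rw [Fintype.piFinset_univ] at h3
  rw [← h3, Finset.prod_eq_single k]
  · simp
  · intro i _ hik
    simp [hik, hd i]
  · intro h
    exact absurd (Finset.mem_univ k) h

/-- **(C3b)** -/
theorem entropy_prodM {n : ℕ} {σ : Fin n → Matrix ι ι ℂ} (h : ∀ i, IsState (σ i)) :
    entropy (prodM σ) = ∑ i, entropy (σ i) := by
  choose U hU _ hUd using fun i => exists_unitary_diag (h i).1.1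
  have e : prodM σ = prodM U *
      diagonal (fun x => ((∏ i, (h i).1.1.eigenvalues (x i) : ℝ) : ℂ)) * (prodM U)ᴴ := by
    have hd : (diagonal (fun x => ((∏ i, (h i).1.1.eigenvalues (x i) : ℝ) : ℂ)) :
        Matrix (Fin n → ι) (Fin n → ι) ℂ) =
        prodM (fun i => diagonal (fun j => ((h i).1.1.eigenvalues j : ℂ))) := by
      rw [prodM_diagonal]
      congr 1
      funext x
      push_cast
      rfl
    rw [hd, prodM_conjTranspose, prodM_mul, prodM_mul]
    congr 1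
    funext i
    exact hUd i
  have hU' : (prodM U)ᴴ * prodM U = 1 := by
    rw [prodM_conjTranspose, prodM_mul, ← prodM_one]
    congr 1
    funext i
    exact hU i
  rw [entropy_of_conj hU' _ e, shannon_prod (fun i => (h i).1.1.eigenvalues)
    (fun i => sum_eigenvalues _ (h i).2)]
  refine Finset.sum_congr rfl fun i _ => ?_
  rw [entropy, dif_pos (h i).1.1]

/-! ### Tensor powers -/

/-- A linear map on matrices is determined by its values on the matrix units. -/
theorem map_eq_sum_single (Φ : Matrix ι ι ℂ →ₗ[ℂ] Matrix κ κ ℂ) (X : Matrix ι ι ℂ) (y y' : κ) :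
    Φ X y y' = ∑ a, ∑ b, X a b * Φ (Matrix.single a b 1) y y' := by
  conv_lhs => rw [matrix_eq_sum_single X]
  simp only [map_sum, Matrix.sum_apply]
  refine Finset.sum_congr rfl fun a _ => Finset.sum_congr rfl fun b _ => ?_
  have : Matrix.single a b (X a b) = X a b • Matrix.single a b (1 : ℂ) := by
    rw [smul_single, smul_eq_mul, mul_one]
  rw [this, map_smul, Matrix.smul_apply, smul_eq_mul]

/-- **(B5)** Tensor powers of maps on product matrices. -/
theorem tensorPower_prodM (Φ : Matrix ι ι ℂ →ₗ[ℂ] Matrix κ κ ℂ) {n : ℕ}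
    (σ : Fin n → Matrix ι ι ℂ) : tensorPower Φ n (prodM σ) = prodM (fun i => Φ (σ i)) := by
  ext y y'
  rw [prodM_apply]
  show ∑ x, ∑ x', prodM σ x x' * ∏ i, Φ (Matrix.single (x i) (x' i) 1) (y i) (y' i) = _
  have h1 : ∀ i, Φ (σ i) (y i) (y' i) =
      ∑ a, ∑ b, σ i a b * Φ (Matrix.single a b 1) (y i) (y' i) := fun i =>
    map_eq_sum_single Φ (σ i) (y i) (y' i)
  simp_rw [h1]
  rw [Finset.prod_univ_sum, Fintype.piFinset_univ]
  refine Finset.sum_congr rfl fun x _ => ?_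
  rw [Finset.prod_univ_sum, Fintype.piFinset_univ]
  refine Finset.sum_congr rfl fun x' _ => ?_
  rw [prodM_apply, Finset.prod_mul_distrib]

/-- The first tensor power is the map itself, up to relabelling. -/
theorem tensorPower_one (Φ : Matrix ι ι ℂ →ₗ[ℂ] Matrix κ κ ℂ)
    (X : Matrix (Fin 1 → ι) (Fin 1 → ι) ℂ) :
    tensorPower Φ 1 X = (Φ (X.submatrix (Equiv.funUnique (Fin 1) ι).symm
      (Equiv.funUnique (Fin 1) ι).symm)).submatrix (Equiv.funUnique (Fin 1) κ)
      (Equiv.funUnique (Fin 1) κ) := by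
  ext y y'
  rw [Matrix.submatrix_apply, map_eq_sum_single Φ]
  show ∑ x, ∑ x', X x x' * ∏ i, Φ (Matrix.single (x i) (x' i) 1) (y i) (y' i) = _
  rw [← Equiv.sum_comp (Equiv.funUnique (Fin 1) ι).symm]
  refine Finset.sum_congr rfl fun a _ => ?_
  rw [← Equiv.sum_comp (Equiv.funUnique (Fin 1) ι).symm]
  refine Finset.sum_congr rfl fun b _ => ?_
  simp

theorem isState_submatrix (e : κ ≃ ι) {A : Matrix ι ι ℂ} (h : IsState A) :
    IsState (A.submatrix e e) := by
  refine ⟨h.1.submatrix e, ?_⟩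
  rw [← h.2]
  simp only [Matrix.trace, diag_apply, submatrix_apply]
  exact Equiv.sum_comp e (fun i => A i i)

/-- **(C1)** -/
theorem holevoSet_tensorPower_one (Φ : Matrix ι ι ℂ →ₗ[ℂ] Matrix κ κ ℂ) :
    holevoSet (tensorPower Φ 1) = holevoSet Φ := by
  set e := Equiv.funUnique (Fin 1) ι with he
  set e' := Equiv.funUnique (Fin 1) κ with he'
  ext v
  constructor
  · rintro ⟨m, w, ρ, hw, hw1, hρ, rfl⟩
    refine ⟨m, w, fun a => (ρ a).submatrix e.symm e.symm, hw, hw1,
      fun a => isState_submatrix e.symm (hρ a), ?_⟩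
    have h1 : ∑ a, (w a : ℂ) • tensorPower Φ 1 (ρ a) =
        (∑ a, (w a : ℂ) • Φ ((ρ a).submatrix e.symm e.symm)).submatrix e' e' := by
      ext y y'
      simp only [Matrix.sum_apply, Matrix.smul_apply, Matrix.submatrix_apply, tensorPower_one]
      rfl
    rw [h1, entropy_submatrix]
    congr 1
    refine Finset.sum_congr rfl fun a _ => ?_
    rw [tensorPower_one, entropy_submatrix]
  · rintro ⟨m, w, ρ, hw, hw1, hρ, rfl⟩
    refine ⟨m, w, fun a => (ρ a).submatrix e e, hw, hw1,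
      fun a => isState_submatrix e (hρ a), ?_⟩
    have h0 : ∀ a, tensorPower Φ 1 ((ρ a).submatrix e e) = (Φ (ρ a)).submatrix e' e' := by
      intro a
      have hid : ((ρ a).submatrix e e).submatrix e.symm e.symm = ρ a := by
        ext i j
        simp only [Matrix.submatrix_apply, Equiv.apply_symm_apply]
      rw [tensorPower_one, hid]
    have h1 : ∑ a, (w a : ℂ) • tensorPower Φ 1 ((ρ a).submatrix e e) =
        (∑ a, (w a : ℂ) • Φ (ρ a)).submatrix e' e' := by
      ext y y'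
      simp only [Matrix.sum_apply, Matrix.smul_apply, Matrix.submatrix_apply, h0]
    rw [h1, entropy_submatrix]
    congr 1
    refine Finset.sum_congr rfl fun a _ => ?_
    rw [h0, entropy_submatrix]

theorem holevo_tensorPower_one (Φ : Matrix ι ι ℂ →ₗ[ℂ] Matrix κ κ ℂ) :
    holevo (tensorPower Φ 1) = holevo Φ := by
  rw [holevo, holevo, holevoSet_tensorPower_one]

/-! ### Product ensembles -/

theorem isState_sum {m : ℕ} {w : Fin m → ℝ} (hw : ∀ a, 0 ≤ w a) (hw1 : ∑ a, w a = 1)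
    {ρ : Fin m → Matrix ι ι ℂ} (h : ∀ a, IsState (ρ a)) :
    IsState (∑ a, (w a : ℂ) • ρ a) := by
  constructor
  · refine posSemidef_sum _ fun a _ => (h a).1.smul ?_
    exact_mod_cast hw a
  · rw [trace_sum]
    simp only [trace_smul, (h _).2, smul_eq_mul, mul_one]
    exact_mod_cast hw1

/-- **(C4)** Product ensembles: the Holevo quantity is superadditive. -/
theorem nsmul_mem_holevoSet (Φ : Matrix ι ι ℂ →ₗ[ℂ] Matrix κ κ ℂ)
    (hΦ : ∀ ρ, IsState ρ → IsState (Φ ρ)) (n : ℕ) {v : ℝ} (hv : v ∈ holevoSet Φ) :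
    (n : ℝ) * v ∈ holevoSet (tensorPower Φ n) := by
  obtain ⟨m, w, ρ, hw, hw1, hρ, rfl⟩ := hv
  let E : (Fin n → Fin m) ≃ Fin (m ^ n) := finFunctionFinEquiv
  have hsum1 : ∑ a : Fin n → Fin m, ∏ i, w (a i) = 1 := by
    have h := Finset.prod_univ_sum (fun _ : Fin n => (Finset.univ : Finset (Fin m)))
      (fun _ j => w j)
    rw [Fintype.piFinset_univ] at h
    rw [← h]
    simp [hw1]
  refine ⟨m ^ n, fun b => ∏ i, w (E.symm b i), fun b => prodM (fun i => ρ (E.symm b i)),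
    fun b => Finset.prod_nonneg fun i _ => hw _, ?_, fun b => prodM_isState fun i => hρ _, ?_⟩
  · rw [Equiv.sum_comp E.symm (fun a => ∏ i, w (a i))]
    exact hsum1
  · have havg : ∑ b, ((∏ i, w (E.symm b i) : ℝ) : ℂ) •
        tensorPower Φ n (prodM (fun i => ρ (E.symm b i))) =
        prodM (fun _ : Fin n => ∑ a, (w a : ℂ) • Φ (ρ a)) := by
      rw [Equiv.sum_comp E.symm (fun a : Fin n → Fin m => ((∏ i, w (a i) : ℝ) : ℂ) •
        tensorPower Φ n (prodM (fun i => ρ (a i))))]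
      ext y y'
      rw [prodM_apply, Matrix.sum_apply]
      simp only [tensorPower_prodM, Matrix.smul_apply, prodM_apply, Matrix.sum_apply, smul_eq_mul]
      rw [Finset.prod_univ_sum, Fintype.piFinset_univ]
      refine Finset.sum_congr rfl fun a _ => ?_
      rw [Finset.prod_mul_distrib]
      push_cast
      rfl
    rw [havg, entropy_prodM (fun _ => isState_sum hw hw1 fun a => hΦ _ (hρ a))]
    have hent : ∑ b, (∏ i, w (E.symm b i)) *
        entropy (tensorPower Φ n (prodM (fun i => ρ (E.symm b i)))) =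
        n * ∑ a, w a * entropy (Φ (ρ a)) := by
      rw [Equiv.sum_comp E.symm (fun a : Fin n → Fin m => (∏ i, w (a i)) *
        entropy (tensorPower Φ n (prodM (fun i => ρ (a i)))))]
      have h1 : ∀ a : Fin n → Fin m, (∏ i, w (a i)) *
          entropy (tensorPower Φ n (prodM (fun i => ρ (a i)))) =
          ∑ k, ∏ i, (if i = k then w (a i) * entropy (Φ (ρ (a i))) else w (a i)) := by
        intro a
        rw [tensorPower_prodM, entropy_prodM (fun i => hΦ _ (hρ _)), Finset.mul_sum]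
        refine Finset.sum_congr rfl fun k _ => ?_
        have h5 : ∀ i, (if i = k then w (a i) * entropy (Φ (ρ (a i))) else w (a i)) =
            w (a i) * (if i = k then entropy (Φ (ρ (a i))) else 1) := by
          intro i
          split_ifs
          · rfl
          · rw [mul_one]
        simp_rw [h5]
        rw [Finset.prod_mul_distrib, Finset.prod_ite_eq' Finset.univ k]
        simp
      simp_rw [h1]
      rw [Finset.sum_comm]
      have h2 : ∀ k : Fin n, ∑ a : Fin n → Fin m,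
          ∏ i, (if i = k then w (a i) * entropy (Φ (ρ (a i))) else w (a i)) =
          ∑ b, w b * entropy (Φ (ρ b)) := by
        intro k
        have h3 := Finset.prod_univ_sum (fun _ : Fin n => (Finset.univ : Finset (Fin m)))
          (fun i j => if i = k then w j * entropy (Φ (ρ j)) else w j)
        rw [Fintype.piFinset_univ] at h3
        rw [← h3, Finset.prod_eq_single k]
        · simp
        · intro i _ hik
          simp [hik, hw1]
        · intro h
          exact absurd (Finset.mem_univ k) h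
      simp_rw [h2]
      simp
    rw [hent]
    simp
    ring

end Vale.Agent.P358
end
end

section

section

set_option autoImplicit false
set_option linter.unusedSectionVars false

/-!
Concavity of the entropy, the pinching inequality and subadditivity over classical marginals.
-/

namespace Vale.Agent.P358

open Matrix
open scoped ComplexOrder

variable {ι κ : Type} [Fintype ι] [DecidableEq ι] [Fintype κ] [DecidableEq κ]

/-- `η x = - x log₂ x`. -/
noncomputable def eta (x : ℝ) : ℝ := -(x * Real.logb 2 x)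

theorem eta_eq (x : ℝ) : eta x = Real.negMulLog x / Real.log 2 := by
  rw [eta, Real.negMulLog, Real.logb]
  ring

theorem log_two_pos : 0 < Real.log 2 := Real.log_pos one_lt_two

/-- Jensen's inequality for `η`. -/
theorem eta_jensen {α : Type*} (s : Finset α) (w x : α → ℝ) (hw : ∀ i ∈ s, 0 ≤ w i)
    (hw1 : ∑ i ∈ s, w i = 1) (hx : ∀ i ∈ s, 0 ≤ x i) :
    ∑ i ∈ s, w i * eta (x i) ≤ eta (∑ i ∈ s, w i * x i) := by
  have h := Real.concaveOn_negMulLog.le_map_sum hw hw1 (fun i hi => Set.mem_Ici.2 (hx i hi))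
  simp only [smul_eq_mul] at h
  simp only [eta_eq]
  rw [le_div_iff₀ log_two_pos, Finset.sum_mul]
  refine le_trans (le_of_eq ?_) h
  refine Finset.sum_congr rfl fun i _ => ?_
  have := log_two_pos.ne'
  field_simp

theorem entropy_eq_sum_eta {A : Matrix ι ι ℂ} (hA : A.IsHermitian) :
    entropy A = ∑ i, eta (hA.eigenvalues i) := by
  rw [entropy, dif_pos hA]
  rfl

/-- The diagonal entries of a unitary matrix times a diagonal matrix times the adjoint. -/
theorem conj_diag_apply (W : Matrix ι ι ℂ) (d : ι → ℝ) (i : ι) :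
    (W * diagonal (fun j => (d j : ℂ)) * Wᴴ) i i = ((∑ j, ‖W i j‖ ^ 2 * d j : ℝ) : ℂ) := by
  rw [Matrix.mul_apply]
  push_cast
  refine Finset.sum_congr rfl fun j _ => ?_
  rw [mul_diagonal, conjTranspose_apply]
  have h : W i j * star (W i j) = ((‖W i j‖ ^ 2 : ℝ) : ℂ) := by
    rw [RCLike.star_def, Complex.mul_conj, Complex.normSq_eq_norm_sq]
  calc W i j * (d j : ℂ) * star (W i j) = (W i j * star (W i j)) * (d j : ℂ) := by ring
    _ = ((‖W i j‖ ^ 2 : ℝ) : ℂ) * (d j : ℂ) := by rw [h]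
    _ = (‖W i j‖ : ℂ) ^ 2 * (d j : ℂ) := by push_cast; rfl

theorem row_norm_sq {W : Matrix ι ι ℂ} (hW : W * Wᴴ = 1) (i : ι) : ∑ j, ‖W i j‖ ^ 2 = 1 := by
  have h := conj_diag_apply W (fun _ => 1) i
  simp only [Complex.ofReal_one, mul_one, diagonal_one, hW, one_apply_eq] at h
  exact_mod_cast h.symm

theorem col_norm_sq {W : Matrix ι ι ℂ} (hW : Wᴴ * W = 1) (j : ι) : ∑ i, ‖W i j‖ ^ 2 = 1 := by
  have h := row_norm_sq (W := Wᴴ) (by rw [conjTranspose_conjTranspose]; exact hW) j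
  simpa [conjTranspose_apply] using h

/-- **Peierls inequality** for the entropy. -/
theorem entropy_le_conj_diag {A : Matrix ι ι ℂ} (hA : A.PosSemidef) {U : Matrix ι ι ℂ}
    (hU : U * Uᴴ = 1) (hU' : Uᴴ * U = 1) :
    entropy A ≤ ∑ i, eta ((Uᴴ * A * U) i i).re := by
  obtain ⟨V, hV, hV', h⟩ := exists_unitary_diag hA.1
  set lam := hA.1.eigenvalues with hlam
  set W : Matrix ι ι ℂ := Uᴴ * V with hW
  have e : Uᴴ * A * U = W * diagonal (fun j => (lam j : ℂ)) * Wᴴ := by
    rw [hW, conjTranspose_mul, conjTranspose_conjTranspose]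
    conv_lhs => rw [h]
    simp only [Matrix.mul_assoc]
  have hWW : W * Wᴴ = 1 := by
    rw [hW, conjTranspose_mul, conjTranspose_conjTranspose, Matrix.mul_assoc,
      ← Matrix.mul_assoc V, hV', Matrix.one_mul, hU']
  have hWW' : Wᴴ * W = 1 := by
    rw [hW, conjTranspose_mul, conjTranspose_conjTranspose, Matrix.mul_assoc,
      ← Matrix.mul_assoc U, hU, Matrix.one_mul, hV]
  have hi : ∀ i, ((Uᴴ * A * U) i i).re = ∑ j, ‖W i j‖ ^ 2 * lam j := by
    intro i
    rw [e, conj_diag_apply, Complex.ofReal_re]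
  simp only [hi]
  calc entropy A = ∑ j, eta (lam j) := entropy_eq_sum_eta hA.1
    _ = ∑ j, (∑ i, ‖W i j‖ ^ 2) * eta (lam j) := by
      refine Finset.sum_congr rfl fun j _ => ?_
      rw [col_norm_sq hWW', one_mul]
    _ = ∑ i, ∑ j, ‖W i j‖ ^ 2 * eta (lam j) := by
      simp only [Finset.sum_mul]
      exact Finset.sum_comm
    _ ≤ ∑ i, eta (∑ j, ‖W i j‖ ^ 2 * lam j) := by
      refine Finset.sum_le_sum fun i _ => ?_
      exact eta_jensen _ _ _ (fun j _ => by positivity) (row_norm_sq hWW i)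
        (fun j _ => hA.eigenvalues_nonneg j)

/-- **Pinching.** The entropy is at most the entropy of the diagonal. -/
theorem entropy_le_diag {A : Matrix ι ι ℂ} (hA : A.PosSemidef) :
    entropy A ≤ ∑ i, eta (A i i).re := by
  have h := entropy_le_conj_diag hA (U := 1) (by simp) (by simp)
  simpa using h

/-- **Concavity of the entropy.** -/
theorem entropy_concave {α : Type*} (s : Finset α) (w : α → ℝ) (ρ : α → Matrix ι ι ℂ)
    (hw : ∀ a ∈ s, 0 ≤ w a) (hw1 : ∑ a ∈ s, w a = 1) (hρ : ∀ a ∈ s, (ρ a).PosSemidef) :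
    ∑ a ∈ s, w a * entropy (ρ a) ≤ entropy (∑ a ∈ s, (w a : ℂ) • ρ a) := by
  set M : Matrix ι ι ℂ := ∑ a ∈ s, (w a : ℂ) • ρ a with hM
  have hMp : M.PosSemidef := posSemidef_sum _ fun a ha => (hρ a ha).smul (by exact_mod_cast hw a ha)
  obtain ⟨U, hU, hU', h⟩ := exists_unitary_diag hMp.1
  have hdiag : ∀ i, hMp.1.eigenvalues i = ∑ a ∈ s, w a * ((Uᴴ * ρ a * U) i i).re := by
    intro i
    have h1 : Uᴴ * M * U = diagonal (fun i => (hMp.1.eigenvalues i : ℂ)) := by
      conv_lhs => rw [h]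
      simp only [Matrix.mul_assoc, hU, Matrix.mul_one]
      rw [← Matrix.mul_assoc, hU, Matrix.one_mul]
    have h2 : Uᴴ * M * U = ∑ a ∈ s, (w a : ℂ) • (Uᴴ * ρ a * U) := by
      rw [hM, Matrix.mul_sum, Matrix.sum_mul]
      refine Finset.sum_congr rfl fun a _ => ?_
      rw [Matrix.mul_smul, Matrix.smul_mul]
    have h3 := congrFun (congrFun (h1.symm.trans h2) i) i
    rw [diagonal_apply_eq, Matrix.sum_apply] at h3
    have h4 := congrArg Complex.re h3
    rw [Complex.ofReal_re, Complex.re_sum] at h4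
    rw [h4]
    refine Finset.sum_congr rfl fun a _ => ?_
    rw [Matrix.smul_apply, smul_eq_mul, Complex.re_ofReal_mul]
  calc ∑ a ∈ s, w a * entropy (ρ a)
      ≤ ∑ a ∈ s, w a * ∑ i, eta ((Uᴴ * ρ a * U) i i).re :=
        Finset.sum_le_sum fun a ha =>
          mul_le_mul_of_nonneg_left (entropy_le_conj_diag (hρ a ha) hU' hU) (hw a ha)
    _ = ∑ i, ∑ a ∈ s, w a * eta ((Uᴴ * ρ a * U) i i).re := by
        simp only [Finset.mul_sum]
        exact Finset.sum_comm
    _ ≤ ∑ i, eta (hMp.1.eigenvalues i) := by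
        refine Finset.sum_le_sum fun i _ => ?_
        rw [hdiag i]
        refine eta_jensen _ _ _ hw hw1 fun a ha => ?_
        have h5 : (Uᴴ * ρ a * U).PosSemidef := (hρ a ha).conjTranspose_mul_mul_same U
        have h6 := h5.diag_nonneg (i := i)
        rw [Complex.nonneg_iff] at h6
        exact h6.1
    _ = entropy M := (entropy_eq_sum_eta hMp.1).symm

/-- Two-point version of concavity. -/
theorem entropy_concave_two {A B : Matrix ι ι ℂ} (hA : A.PosSemidef) (hB : B.PosSemidef)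
    {a b : ℝ} (ha : 0 ≤ a) (hb : 0 ≤ b) (hab : a + b = 1) :
    a * entropy A + b * entropy B ≤ entropy ((a : ℂ) • A + (b : ℂ) • B) := by
  have h := entropy_concave (Finset.univ : Finset (Fin 2)) ![a, b] ![A, B]
    (by intro i _; fin_cases i <;> simpa) (by simpa using hab)
    (by intro i _; fin_cases i <;> simpa)
  simpa [Fin.sum_univ_two] using h

/-! ### Classical subadditivity -/

/-- Gibbs' inequality. -/
theorem gibbs {α : Type*} (s : Finset α) (p q : α → ℝ) (hp : ∀ x ∈ s, 0 ≤ p x)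
    (hq : ∀ x ∈ s, 0 ≤ q x) (hpq : ∀ x ∈ s, q x = 0 → p x = 0)
    (hsum : ∑ x ∈ s, q x ≤ ∑ x ∈ s, p x) :
    ∑ x ∈ s, eta (p x) ≤ ∑ x ∈ s, -(p x * Real.logb 2 (q x)) := by
  have key : ∀ x ∈ s, Real.log 2 * (eta (p x) + p x * Real.logb 2 (q x)) ≤ q x - p x := by
    intro x hx
    rcases (hp x hx).eq_or_lt with h0 | h0
    · have := hq x hx
      simp [eta, ← h0, this]
    · have hq0 : 0 < q x := lt_of_le_of_ne (hq x hx) (fun h => h0.ne' (hpq x hx h.symm))
      have h1 : Real.log (q x / p x) ≤ q x / p x - 1 := Real.log_le_sub_one_of_pos (by positivity)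
      rw [Real.log_div hq0.ne' h0.ne'] at h1
      have h2 : Real.log 2 * (eta (p x) + p x * Real.logb 2 (q x)) =
          p x * (Real.log (q x) - Real.log (p x)) := by
        rw [eta, Real.logb, Real.logb]
        have := log_two_pos.ne'
        field_simp
        ring
      rw [h2]
      calc p x * (Real.log (q x) - Real.log (p x)) ≤ p x * (q x / p x - 1) :=
            mul_le_mul_of_nonneg_left h1 h0.le
        _ = q x - p x := by field_simp
  have h := Finset.sum_le_sum key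
  rw [← Finset.mul_sum, Finset.sum_sub_distrib, Finset.sum_add_distrib] at h
  have h3 : Real.log 2 * (∑ x ∈ s, eta (p x) + ∑ x ∈ s, p x * Real.logb 2 (q x)) ≤ 0 := by
    linarith
  have h4 : ∑ x ∈ s, eta (p x) + ∑ x ∈ s, p x * Real.logb 2 (q x) ≤ 0 := by
    by_contra hcon
    push Not at hcon
    have := mul_pos log_two_pos hcon
    linarith
  rw [Finset.sum_neg_distrib]
  linarith

/-- Subadditivity of the Shannon entropy over the marginals. -/
theorem shannon_le_marginals {n : ℕ} (p : (Fin n → ι) → ℝ) (hp : ∀ x, 0 ≤ p x)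
    (hp1 : ∑ x, p x = 1) :
    ∑ x, eta (p x) ≤ ∑ i, ∑ b, eta (∑ x, if x i = b then p x else 0) := by
  set m : Fin n → ι → ℝ := fun i b => ∑ x, if x i = b then p x else 0 with hm
  have hm0 : ∀ i b, 0 ≤ m i b := fun i b => Finset.sum_nonneg fun x _ => by
    split_ifs
    · exact hp x
    · exact le_rfl
  have hm1 : ∀ i, ∑ b, m i b = 1 := by
    intro i
    rw [hm, Finset.sum_comm, ← hp1]
    refine Finset.sum_congr rfl fun x _ => ?_
    simp
  have hle : ∀ i x, p x ≤ m i (x i) := by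
    intro i x
    have h := Finset.single_le_sum (f := fun y => if y i = x i then p y else 0)
      (fun y _ => by
        show 0 ≤ if y i = x i then p y else 0
        split_ifs
        · exact hp y
        · exact le_rfl) (Finset.mem_univ x)
    simpa using h
  have hq1 : ∑ x : Fin n → ι, ∏ i, m i (x i) = 1 := by
    have h := Finset.prod_univ_sum (fun _ : Fin n => (Finset.univ : Finset ι)) m
    rw [Fintype.piFinset_univ] at h
    rw [← h]
    exact Finset.prod_eq_one fun i _ => hm1 i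
  have h1 := gibbs Finset.univ p (fun x => ∏ i, m i (x i)) (fun x _ => hp x)
    (fun x _ => Finset.prod_nonneg fun i _ => hm0 _ _)
    (by
      intro x _ h0
      obtain ⟨i, _, hi⟩ := Finset.prod_eq_zero_iff.1 h0
      have := hle i x
      rw [hi] at this
      exact le_antisymm this (hp x))
    (by rw [hp1, hq1])
  refine h1.trans (le_of_eq ?_)
  have h2 : ∀ x, -(p x * Real.logb 2 (∏ i, m i (x i))) = ∑ i, -(p x * Real.logb 2 (m i (x i))) := by
    intro x
    rw [Finset.sum_neg_distrib, ← Finset.mul_sum]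
    by_cases h0 : ∃ k, m k (x k) = 0
    · obtain ⟨k, hk⟩ := h0
      have hpx : p x = 0 := by
        have := hle k x
        rw [hk] at this
        exact le_antisymm this (hp x)
      rw [hpx]; simp
    · push Not at h0
      rw [Real.logb_prod _ _ fun i _ => h0 i]
  simp_rw [h2]
  rw [Finset.sum_comm]
  refine Finset.sum_congr rfl fun i _ => ?_
  have h3 : ∀ b, eta (m i b) = ∑ x, if x i = b then -(p x * Real.logb 2 (m i (x i))) else 0 := by
    intro b
    rw [eta, hm]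
    show -((∑ x, if x i = b then p x else 0) * Real.logb 2 (m i b)) = _
    rw [Finset.sum_mul, ← Finset.sum_neg_distrib]
    refine Finset.sum_congr rfl fun x _ => ?_
    split_ifs with hb
    · rw [hb]
    · simp
  have h4 : ∑ b, eta (m i b) =
      ∑ b, ∑ x, if x i = b then -(p x * Real.logb 2 (m i (x i))) else 0 :=
    Finset.sum_congr rfl fun b _ => h3 b
  refine Eq.trans ?_ h4.symm
  rw [Finset.sum_comm]
  refine Finset.sum_congr rfl fun x _ => ?_
  simp

/-- The entropy of a state on `n` systems is at most the sum of the entropies of the diagonal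
marginals. -/
theorem entropy_le_marginals {n : ℕ} {ρ : Matrix (Fin n → ι) (Fin n → ι) ℂ} (h : IsState ρ) :
    entropy ρ ≤ ∑ i, ∑ b, eta (∑ x, if x i = b then (ρ x x).re else 0) := by
  refine (entropy_le_diag h.1).trans ?_
  refine shannon_le_marginals (fun x => (ρ x x).re) (fun x => ?_) ?_
  · have h6 := h.1.diag_nonneg (i := x)
    rw [Complex.nonneg_iff] at h6
    exact h6.1
  · have h1 := congrArg Complex.re h.2
    simpa [Matrix.trace] using h1

end Vale.Agent.P358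
end
end

section

section

set_option autoImplicit false
set_option linter.unusedSectionVars false

/-!
Upper side: marginals of the tensor power, entropy of the output, boundedness.
-/

namespace Vale.Agent.P358

open Matrix
open scoped ComplexOrder

/-! ### (U0) -/

theorem entropy_eq_vN {ι : Type} [Fintype ι] [DecidableEq ι] (X : Matrix ι ι ℂ) :
    entropy X = vN X / Real.log 2 := by
  by_cases h : X.IsHermitian
  · rw [entropy_eq_sum_eta h, vN, dif_pos h, Finset.sum_div]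
    exact Finset.sum_congr rfl fun i _ => eta_eq _
  · rw [entropy, dif_neg h, vN, dif_neg h, zero_div]

theorem eta_nonneg {x : ℝ} (h0 : 0 ≤ x) (h1 : x ≤ 1) : 0 ≤ eta x := by
  rw [eta_eq]
  exact div_nonneg (Real.negMulLog_nonneg h0 h1) log_two_pos.le

theorem eta_le {x : ℝ} (h0 : 0 ≤ x) : eta x ≤ 1 / Real.log 2 := by
  rw [eta_eq]
  refine div_le_div_of_nonneg_right ?_ log_two_pos.le
  rcases h0.eq_or_lt with rfl | h
  · simp
  · have h1 := Real.one_sub_inv_le_log_of_pos h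
    have h2 : x * (1 - x⁻¹) ≤ x * Real.log x := mul_le_mul_of_nonneg_left h1 h.le
    have h3 : x * (1 - x⁻¹) = x - 1 := by field_simp
    rw [Real.negMulLog]
    linarith

theorem entropy_nonneg {ι : Type} [Fintype ι] [DecidableEq ι] {ρ : Matrix ι ι ℂ}
    (h : IsState ρ) : 0 ≤ entropy ρ := by
  rw [entropy_eq_sum_eta h.1.1]
  refine Finset.sum_nonneg fun i _ => eta_nonneg (h.1.eigenvalues_nonneg i) ?_
  rw [← sum_eigenvalues h.1.1 h.2]
  exact Finset.single_le_sum (fun j _ => h.1.eigenvalues_nonneg j) (Finset.mem_univ i)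

theorem entropy_le_card {ι : Type} [Fintype ι] [DecidableEq ι] {ρ : Matrix ι ι ℂ}
    (h : ρ.PosSemidef) : entropy ρ ≤ Fintype.card ι * (1 / Real.log 2) := by
  rw [entropy_eq_sum_eta h.1]
  refine (Finset.sum_le_card_nsmul Finset.univ _ (1 / Real.log 2)
    fun i _ => eta_le (h.eigenvalues_nonneg i)).trans (le_of_eq ?_)
  rw [nsmul_eq_mul, Finset.card_univ]

/-! ### The qubit channel on states -/

theorem gadc_apply (γ ν : ℝ) (X : Matrix (Fin 2) (Fin 2) ℂ) :
    gadc γ ν X = !![(X 0 0 + X 1 1) - ((1 - γ) * X 1 1 + γ * ν * (X 0 0 + X 1 1)),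
      (Real.sqrt (1 - γ)) * X 0 1;
      (Real.sqrt (1 - γ)) * X 1 0, (1 - γ) * X 1 1 + γ * ν * (X 0 0 + X 1 1)] := by
  rw [← Matrix.trace_fin_two]
  rfl

theorem gadc_eq_kraus {γ : ℝ} (hγ : γ ∈ Set.Icc (0:ℝ) 1) (ν : ℝ) (X : Matrix (Fin 2) (Fin 2) ℂ) :
    gadc γ ν X =
      ((1 - ν : ℝ) : ℂ) • (!![1, 0; 0, ((Real.sqrt (1 - γ) : ℝ) : ℂ)] * X *
        (!![1, 0; 0, ((Real.sqrt (1 - γ) : ℝ) : ℂ)])ᴴ) +
      (((1 - ν) * γ : ℝ) : ℂ) • (!![0, 1; 0, 0] * X * (!![0, 1; 0, 0])ᴴ) +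
      ((ν : ℝ) : ℂ) • (!![((Real.sqrt (1 - γ) : ℝ) : ℂ), 0; 0, 1] * X *
        (!![((Real.sqrt (1 - γ) : ℝ) : ℂ), 0; 0, 1])ᴴ) +
      ((ν * γ : ℝ) : ℂ) • (!![0, 0; 1, 0] * X * (!![0, 0; 1, 0])ᴴ) := by
  have hs : ((Real.sqrt (1 - γ) : ℝ) : ℂ) * ((Real.sqrt (1 - γ) : ℝ) : ℂ) = 1 - γ := by
    rw [← Complex.ofReal_mul, Real.mul_self_sqrt (by linarith [hγ.2])]
    push_cast
    rfl
  rw [gadc_apply]
  ext i j
  simp only [Matrix.add_apply, Matrix.smul_apply, Matrix.mul_apply, Fin.sum_univ_two,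
    conjTranspose_apply, smul_eq_mul]
  fin_cases i <;> fin_cases j
  · simp
    linear_combination (-(ν : ℂ) * X 0 0) * hs
  · simp
    ring
  · simp
    ring
  · simp
    linear_combination (-(1 - (ν : ℂ)) * X 1 1) * hs

theorem gadc_posSemidef {γ ν : ℝ} (hγ : γ ∈ Set.Icc (0:ℝ) 1) (hν : ν ∈ Set.Icc (0:ℝ) 1)
    {X : Matrix (Fin 2) (Fin 2) ℂ} (hX : X.PosSemidef) : (gadc γ ν X).PosSemidef := by
  rw [gadc_eq_kraus hγ]
  have h1 : (0 : ℂ) ≤ ((1 - ν : ℝ) : ℂ) := by
    have := hν.2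
    exact_mod_cast sub_nonneg.2 this
  have h2 : (0 : ℂ) ≤ (((1 - ν) * γ : ℝ) : ℂ) := by
    have := mul_nonneg (sub_nonneg.2 hν.2) hγ.1
    exact_mod_cast this
  have h3 : (0 : ℂ) ≤ ((ν : ℝ) : ℂ) := by exact_mod_cast hν.1
  have h4 : (0 : ℂ) ≤ ((ν * γ : ℝ) : ℂ) := by
    have := mul_nonneg hν.1 hγ.1
    exact_mod_cast this
  exact ((((hX.mul_mul_conjTranspose_same _).smul h1).add
    ((hX.mul_mul_conjTranspose_same _).smul h2)).add
    ((hX.mul_mul_conjTranspose_same _).smul h3)).add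
    ((hX.mul_mul_conjTranspose_same _).smul h4)

theorem trace_gadc (γ ν : ℝ) (X : Matrix (Fin 2) (Fin 2) ℂ) : (gadc γ ν X).trace = X.trace := by
  rw [gadc_apply, Matrix.trace_fin_two, Matrix.trace_fin_two]
  simp

theorem gadc_isState {γ ν : ℝ} (hγ : γ ∈ Set.Icc (0:ℝ) 1) (hν : ν ∈ Set.Icc (0:ℝ) 1)
    {X : Matrix (Fin 2) (Fin 2) ℂ} (hX : IsState X) : IsState (gadc γ ν X) :=
  ⟨gadc_posSemidef hγ hν hX.1, by rw [trace_gadc, hX.2]⟩

/-! ### (U3) -/

theorem bddAbove_holevoSet {γ ν : ℝ} (hγ : γ ∈ Set.Icc (0:ℝ) 1) (hν : ν ∈ Set.Icc (0:ℝ) 1) :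
    BddAbove (holevoSet (gadc γ ν)) := by
  refine ⟨(Fintype.card (Fin 2) : ℝ) * (1 / Real.log 2), ?_⟩
  rintro v ⟨m, w, ρ, hw, hw1, hρ, rfl⟩
  have h1 : IsState (∑ a, (w a : ℂ) • gadc γ ν (ρ a)) :=
    isState_sum hw hw1 fun a => gadc_isState hγ hν (hρ a)
  have h2 := entropy_le_card h1.1
  have h3 : 0 ≤ ∑ a, w a * entropy (gadc γ ν (ρ a)) :=
    Finset.sum_nonneg fun a _ => mul_nonneg (hw a) (entropy_nonneg (gadc_isState hγ hν (hρ a)))
  linarith

/-- A state exists, so the Holevo set is not empty. -/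
theorem holevoSet_nonempty {ι κ : Type} [Fintype ι] [DecidableEq ι] [Nonempty ι] [Fintype κ]
    [DecidableEq κ] (Φ : Matrix ι ι ℂ →ₗ[ℂ] Matrix κ κ ℂ) : (holevoSet Φ).Nonempty := by
  obtain ⟨i⟩ := (inferInstance : Nonempty ι)
  refine ⟨_, 1, fun _ => 1, fun _ => diagonal (Pi.single i 1), fun _ => zero_le_one, by simp,
    fun _ => ⟨?_, ?_⟩, rfl⟩
  · refine PosSemidef.diagonal fun j => ?_
    by_cases h : j = i
    · subst h; simp
    · simp [h]
  · rw [trace_diagonal]
    simp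

/-! ### (U1) Marginals -/

theorem gadc_single_diag_ne (γ ν : ℝ) {a b : Fin 2} (h : a ≠ b) (c : Fin 2) :
    gadc γ ν (Matrix.single a b 1) c c = 0 := by
  rw [gadc_apply]
  fin_cases a <;> fin_cases b <;> fin_cases c <;> simp_all

theorem sum_gadc_single (γ ν : ℝ) (a b : Fin 2) :
    ∑ c, gadc γ ν (Matrix.single a b 1) c c = if a = b then 1 else 0 := by
  have h := trace_gadc γ ν (Matrix.single a b 1)
  rw [Matrix.trace] at h
  simp only [diag_apply] at h
  rw [h]
  fin_cases a <;> fin_cases b <;> simp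

/-- The diagonal marginal of the output of the tensor power. -/
theorem marginal_tensorPower (γ ν : ℝ) (n : ℕ)
    (X : Matrix (Fin n → Fin 2) (Fin n → Fin 2) ℂ) (i : Fin n) (b : Fin 2) :
    ∑ x, (if x i = b then (tensorPower (gadc γ ν) n X) x x else 0) =
      ∑ u, X u u * gadc γ ν (Matrix.single (u i) (u i) 1) b b := by
  have h1 : ∀ x, (if x i = b then (tensorPower (gadc γ ν) n X) x x else 0) =
      ∑ u, ∑ u', X u u' * ∏ j, (if j = i then
        (if x j = b then gadc γ ν (Matrix.single (u j) (u' j) 1) (x j) (x j) else 0)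
        else gadc γ ν (Matrix.single (u j) (u' j) 1) (x j) (x j)) := by
    intro x
    have h2 : ∀ u u' : Fin n → Fin 2, ∏ j, (if j = i then
        (if x j = b then gadc γ ν (Matrix.single (u j) (u' j) 1) (x j) (x j) else 0)
        else gadc γ ν (Matrix.single (u j) (u' j) 1) (x j) (x j)) =
        if x i = b then ∏ j, gadc γ ν (Matrix.single (u j) (u' j) 1) (x j) (x j) else 0 := by
      intro u u'
      by_cases hb : x i = b
      · rw [if_pos hb]
        refine Finset.prod_congr rfl fun j _ => ?_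
        by_cases hj : j = i
        · subst hj; simp [hb]
        · simp [hj]
      · rw [if_neg hb]
        refine Finset.prod_eq_zero (Finset.mem_univ i) ?_
        simp [hb]
    simp_rw [h2]
    by_cases hb : x i = b
    · simp only [hb, if_true]
      rfl
    · simp [hb]
  simp_rw [h1]
  rw [Finset.sum_comm]
  refine Finset.sum_congr rfl fun u _ => ?_
  rw [Finset.sum_comm]
  have h3 : ∀ u', ∑ x : Fin n → Fin 2, X u u' * ∏ j, (if j = i then
        (if x j = b then gadc γ ν (Matrix.single (u j) (u' j) 1) (x j) (x j) else 0)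
        else gadc γ ν (Matrix.single (u j) (u' j) 1) (x j) (x j)) =
      X u u' * ∏ j, (if j = i then gadc γ ν (Matrix.single (u j) (u' j) 1) b b
        else if u j = u' j then 1 else 0) := by
    intro u'
    rw [← Finset.mul_sum]
    congr 1
    have h4 := Finset.prod_univ_sum (fun _ : Fin n => (Finset.univ : Finset (Fin 2)))
      (fun j c => if j = i then
        (if c = b then gadc γ ν (Matrix.single (u j) (u' j) 1) c c else 0)
        else gadc γ ν (Matrix.single (u j) (u' j) 1) c c)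
    rw [Fintype.piFinset_univ] at h4
    rw [← h4]
    refine Finset.prod_congr rfl fun j _ => ?_
    by_cases hj : j = i
    · simp only [hj, if_true]
      rw [Finset.sum_ite_eq' Finset.univ b]
      simp
    · simp only [hj, if_false]
      exact sum_gadc_single γ ν _ _
  simp_rw [h3]
  rw [Finset.sum_eq_single u]
  · congr 1
    rw [Finset.prod_eq_single i]
    · simp
    · intro j _ hj
      simp [hj]
    · intro h
      exact absurd (Finset.mem_univ i) h
  · intro u' _ hne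
    obtain ⟨j, hj⟩ := Function.ne_iff.1 hne
    have hj' : u j ≠ u' j := fun h => hj h.symm
    rw [Finset.prod_eq_zero (Finset.mem_univ j), mul_zero]
    by_cases hji : j = i
    · subst hji
      rw [if_pos rfl]
      exact gadc_single_diag_ne γ ν hj' b
    · rw [if_neg hji, if_neg hj']
  · intro h
    exact absurd (Finset.mem_univ u) h

theorem marginal_aux (γ ν : ℝ) (n : ℕ)
    (X : Matrix (Fin n → Fin 2) (Fin n → Fin 2) ℂ) (i : Fin n) (b : Fin 2) :
    ∑ x, (if x i = b then (tensorPower (gadc γ ν) n X) x x else 0) =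
      gadc γ ν (Matrix.single 0 0 1) b b * ∑ x, (if x i = 0 then X x x else 0) +
      gadc γ ν (Matrix.single 1 1 1) b b * ∑ x, (if x i = 1 then X x x else 0) := by
  rw [marginal_tensorPower, Finset.mul_sum, Finset.mul_sum, ← Finset.sum_add_distrib]
  refine Finset.sum_congr rfl fun x _ => ?_
  have h : x i = 0 ∨ x i = 1 := by omega
  rcases h with h | h
  · simp [h, mul_comm]
  · simp [h, mul_comm]

/-- **(U1)**, excited population. -/
theorem marginal_one (γ ν : ℝ) (n : ℕ)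
    (X : Matrix (Fin n → Fin 2) (Fin n → Fin 2) ℂ) (i : Fin n) :
    ∑ x, (if x i = 1 then (tensorPower (gadc γ ν) n X) x x else 0) =
      ((γ * ν : ℝ) : ℂ) * ∑ x, (if x i = 0 then X x x else 0) +
      ((1 - γ * (1 - ν) : ℝ) : ℂ) * ∑ x, (if x i = 1 then X x x else 0) := by
  rw [marginal_aux]
  congr 2
  · rw [gadc_apply]
    simp
  · rw [gadc_apply]
    simp
    ring

/-- **(U1)**, ground population. -/
theorem marginal_zero (γ ν : ℝ) (n : ℕ)
    (X : Matrix (Fin n → Fin 2) (Fin n → Fin 2) ℂ) (i : Fin n) :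
    ∑ x, (if x i = 0 then (tensorPower (gadc γ ν) n X) x x else 0) =
      ((1 - γ * ν : ℝ) : ℂ) * ∑ x, (if x i = 0 then X x x else 0) +
      ((γ * (1 - ν) : ℝ) : ℂ) * ∑ x, (if x i = 1 then X x x else 0) := by
  rw [marginal_aux]
  congr 2
  · rw [gadc_apply]
    simp
  · rw [gadc_apply]
    simp
    ring

/-- **(U2)** -/
theorem entropy_T_le (γ ν : ℝ) (n : ℕ) {ρ : Matrix (Fin n → Fin 2) (Fin n → Fin 2) ℂ}
    (hρ : IsState ρ) (hT : IsState (tensorPower (gadc γ ν) n ρ)) :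
    entropy (tensorPower (gadc γ ν) n ρ) ≤
      ∑ i, (eta ((1 - γ) * (∑ x, if x i = 1 then (ρ x x).re else 0) + γ * ν) +
        eta (1 - ((1 - γ) * (∑ x, if x i = 1 then (ρ x x).re else 0) + γ * ν))) := by
  refine (entropy_le_marginals hT).trans (le_of_eq ?_)
  refine Finset.sum_congr rfl fun i _ => ?_
  have hre : ∀ (Y : Matrix (Fin n → Fin 2) (Fin n → Fin 2) ℂ) (b : Fin 2),
      (∑ x, if x i = b then (Y x x).re else 0) = (∑ x, if x i = b then Y x x else 0).re := by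
    intro Y b
    rw [Complex.re_sum]
    refine Finset.sum_congr rfl fun x _ => ?_
    split_ifs <;> simp
  have hsum : (∑ x, if x i = 0 then (ρ x x).re else 0) +
      (∑ x, if x i = 1 then (ρ x x).re else 0) = 1 := by
    rw [← Finset.sum_add_distrib]
    have h1 := congrArg Complex.re hρ.2
    rw [Matrix.trace, Complex.re_sum, Complex.one_re] at h1
    rw [← h1]
    refine Finset.sum_congr rfl fun x _ => ?_
    have h : x i = 0 ∨ x i = 1 := by omega
    rcases h with h | h <;> simp [h]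
  have h1 : (∑ x, if x i = 1 then ((tensorPower (gadc γ ν) n ρ) x x).re else 0) =
      (1 - γ) * (∑ x, if x i = 1 then (ρ x x).re else 0) + γ * ν := by
    rw [hre, marginal_one, Complex.add_re, Complex.re_ofReal_mul, Complex.re_ofReal_mul,
      ← hre, ← hre]
    linear_combination (γ * ν) * hsum
  have h0 : (∑ x, if x i = 0 then ((tensorPower (gadc γ ν) n ρ) x x).re else 0) =
      1 - ((1 - γ) * (∑ x, if x i = 1 then (ρ x x).re else 0) + γ * ν) := by
    rw [hre, marginal_zero, Complex.add_re, Complex.re_ofReal_mul, Complex.re_ofReal_mul,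
      ← hre, ← hre]
    linear_combination (1 - γ * ν) * hsum
  rw [Fin.sum_univ_two, h0, h1, add_comm]

end Vale.Agent.P358
end
end

section

section

set_option autoImplicit false

/-!
Single-letter bound via the two-point ensembles of the pure states with amplitudes
`√p, ±√q`.
-/

namespace Vale.Agent.P358

open Matrix
open scoped ComplexOrder

theorem single_entropy_vN {ι : Type} [Fintype ι] [DecidableEq ι] (X : Matrix ι ι ℂ) :
    entropy X * Real.log 2 = vN X := by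
  have h2 : Real.log 2 ≠ 0 := (Real.log_pos one_lt_two).ne'
  unfold entropy vN
  split_ifs with h
  · rw [Finset.sum_mul]
    refine Finset.sum_congr rfl fun i _ => ?_
    rw [Real.logb, Real.negMulLog]
    field_simp
  · simp

/-- The entropy of a two by two positive semidefinite matrix. -/
theorem vN_two {X : Matrix (Fin 2) (Fin 2) ℂ} (hX : X.PosSemidef) :
    vN X = eta2 X.trace.re X.det.re := by
  have h1 := hasEnt_matrix hX
  have hT : 0 ≤ X.trace.re := (Complex.le_def.1 hX.trace_nonneg).1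
  have hD : 0 ≤ X.det.re := (Complex.le_def.1 hX.det_nonneg).1
  have h10 : X 1 0 = star (X 0 1) := (hX.1.apply 1 0).symm
  have i0 : (X 0 0).im = 0 := by
    have := (Complex.le_def.1 (hX.diag_nonneg (i := 0))).2
    simpa using this.symm
  have i1 : (X 1 1).im = 0 := by
    have := (Complex.le_def.1 (hX.diag_nonneg (i := 1))).2
    simpa using this.symm
  have eT : X.trace.re = (X 0 0).re + (X 1 1).re := by
    simp [trace, Fin.sum_univ_two]
  have eD : X.det.re = (X 0 0).re * (X 1 1).re - ((X 0 1).re ^ 2 + (X 0 1).im ^ 2) := by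
    rw [det_fin_two, h10]
    simp [i0, i1]
    ring
  have h4 : 4 * X.det.re ≤ X.trace.re ^ 2 := by
    rw [eT, eD]
    nlinarith [sq_nonneg ((X 0 0).re - (X 1 1).re), sq_nonneg (X 0 1).re, sq_nonneg (X 0 1).im]
  have h2 := hasEnt_eta2 hT hD h4
  have hc : (Fintype.card (Fin 2) : ℝ) = 2 := by simp
  rw [hc] at h1
  refine h1.unique h2 fun t ht => ?_
  unfold ld
  congr 1
  rw [eT, eD, det_fin_two]
  simp [h10, i0, i1]
  ring

/-- The action of the channel on a real symmetric two by two matrix. -/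
theorem gadc_real (γ ν a b c d : ℝ) :
    gadc γ ν !![(a : ℂ), (b : ℂ); (c : ℂ), (d : ℂ)] =
      !![(((1 - γ * ν) * a + γ * (1 - ν) * d : ℝ) : ℂ), ((Real.sqrt (1 - γ) * b : ℝ) : ℂ);
         ((Real.sqrt (1 - γ) * c : ℝ) : ℂ), ((γ * ν * a + (1 - γ * (1 - ν)) * d : ℝ) : ℂ)] := by
  ext i j
  fin_cases i <;> fin_cases j <;> simp [gadc, gadcFun, trace_fin_two] <;> ring

/-- The (unnormalised) pure states with amplitudes `√p, ±√q`. -/
noncomputable def psi (b : Bool) (p q : ℝ) : Matrix (Fin 2) (Fin 2) ℂ :=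
  !![(p : ℂ), (((if b then 1 else -1) * (√p * √q) : ℝ) : ℂ);
     (((if b then 1 else -1) * (√p * √q) : ℝ) : ℂ), (q : ℂ)]

theorem psi_posSemidef (b : Bool) {p q : ℝ} (hp : 0 ≤ p) (hq : 0 ≤ q) :
    (psi b p q).PosSemidef := by
  have h : psi b p q = vecMulVec ![((√p : ℝ) : ℂ), (((if b then 1 else -1) * √q : ℝ) : ℂ)]
      (star ![((√p : ℝ) : ℂ), (((if b then 1 else -1) * √q : ℝ) : ℂ)]) := by
    have h1 : ((√p : ℝ) : ℂ) * ((√p : ℝ) : ℂ) = (p : ℂ) := by
      rw [← Complex.ofReal_mul, Real.mul_self_sqrt hp]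
    have h2 : ((√q : ℝ) : ℂ) * ((√q : ℝ) : ℂ) = (q : ℂ) := by
      rw [← Complex.ofReal_mul, Real.mul_self_sqrt hq]
    ext i j
    fin_cases i <;> fin_cases j <;> cases b <;>
      simp [psi, vecMulVec_apply, h1, h2, mul_comm]
  rw [h]
  exact posSemidef_vecMulVec_self_star _

theorem psi_trace (b : Bool) (p q : ℝ) : (psi b p q).trace = ((p + q : ℝ) : ℂ) := by
  simp [psi, trace, Fin.sum_univ_two]

/-- the determinant of the output -/
noncomputable def outDet (γ ν p q : ℝ) : ℝ :=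
  ((1 - γ * ν) * p + γ * (1 - ν) * q) * (γ * ν * p + (1 - γ * (1 - ν)) * q) - (1 - γ) * (p * q)

theorem gadc_psi (γ ν : ℝ) (b : Bool) (p q : ℝ) :
    gadc γ ν (psi b p q) =
      !![(((1 - γ * ν) * p + γ * (1 - ν) * q : ℝ) : ℂ),
          ((√(1 - γ) * ((if b then 1 else -1) * (√p * √q)) : ℝ) : ℂ);
         ((√(1 - γ) * ((if b then 1 else -1) * (√p * √q)) : ℝ) : ℂ),
          ((γ * ν * p + (1 - γ * (1 - ν)) * q : ℝ) : ℂ)] := by
  rw [psi, gadc_real]

theorem gadc_psi_trace (γ ν : ℝ) (b : Bool) (p q : ℝ) :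
    (gadc γ ν (psi b p q)).trace.re = p + q := by
  rw [gadc_psi]
  simp [trace, Fin.sum_univ_two]
  ring

theorem gadc_psi_det {γ : ℝ} (hγ : γ ≤ 1) (ν : ℝ) (b : Bool) {p q : ℝ} (hp : 0 ≤ p)
    (hq : 0 ≤ q) : (gadc γ ν (psi b p q)).det.re = outDet γ ν p q := by
  rw [gadc_psi, det_fin_two_of]
  rw [← Complex.ofReal_mul, ← Complex.ofReal_mul, ← Complex.ofReal_sub, Complex.ofReal_re]
  have h1 : √(1 - γ) ^ 2 = 1 - γ := Real.sq_sqrt (by linarith)
  have h2 : √p ^ 2 = p := Real.sq_sqrt hp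
  have h3 : √q ^ 2 = q := Real.sq_sqrt hq
  unfold outDet
  have h4 : (√(1 - γ) * ((if b = true then (1 : ℝ) else -1) * (√p * √q))) *
      (√(1 - γ) * ((if b = true then (1 : ℝ) else -1) * (√p * √q))) = (1 - γ) * (p * q) := by
    cases b <;> simp <;> linear_combination (√p ^ 2 * √q ^ 2) * h1 + (1 - γ) * √q ^ 2 * h2 +
      (1 - γ) * p * h3
  rw [h4]

theorem gadc_psi_posSemidef {γ ν : ℝ} (hγ : γ ∈ Set.Icc (0 : ℝ) 1) (hν : ν ∈ Set.Icc (0 : ℝ) 1)
    (b : Bool) {p q : ℝ} (hp : 0 ≤ p) (hq : 0 ≤ q) :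
    (gadc γ ν (psi b p q)).PosSemidef := by
  obtain ⟨hγ0, hγ1⟩ := hγ
  obtain ⟨hν0, hν1⟩ := hν
  have e : gadc γ ν (psi b p q) =
      ((ν : ℝ) : ℂ) • (psi b ((1 - γ) * p) q + !![0, 0; 0, ((γ * p : ℝ) : ℂ)]) +
      ((1 - ν : ℝ) : ℂ) • (psi b p ((1 - γ) * q) + !![((γ * q : ℝ) : ℂ), 0; 0, 0]) := by
    rw [gadc_psi, psi, psi]
    have h1 : √((1 - γ) * p) = √(1 - γ) * √p := Real.sqrt_mul (by linarith) p
    have h2 : √((1 - γ) * q) = √(1 - γ) * √q := Real.sqrt_mul (by linarith) q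
    rw [h1, h2]
    ext i j
    fin_cases i <;> fin_cases j <;> simp <;> ring
  rw [e]
  have d1 : (!![0, 0; 0, ((γ * p : ℝ) : ℂ)] : Matrix (Fin 2) (Fin 2) ℂ).PosSemidef := by
    have : (!![0, 0; 0, ((γ * p : ℝ) : ℂ)] : Matrix (Fin 2) (Fin 2) ℂ) =
        diagonal ![0, ((γ * p : ℝ) : ℂ)] := by
      ext i j
      fin_cases i <;> fin_cases j <;> simp
    rw [this]
    apply PosSemidef.diagonal
    intro i
    fin_cases i
    · simp
    · exact Complex.zero_le_real.2 (mul_nonneg hγ0 hp)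
  have d2 : (!![((γ * q : ℝ) : ℂ), 0; 0, 0] : Matrix (Fin 2) (Fin 2) ℂ).PosSemidef := by
    have : (!![((γ * q : ℝ) : ℂ), 0; 0, 0] : Matrix (Fin 2) (Fin 2) ℂ) =
        diagonal ![((γ * q : ℝ) : ℂ), 0] := by
      ext i j
      fin_cases i <;> fin_cases j <;> simp
    rw [this]
    apply PosSemidef.diagonal
    intro i
    fin_cases i
    · exact Complex.zero_le_real.2 (mul_nonneg hγ0 hq)
    · simp
  refine PosSemidef.add ?_ ?_
  · exact (((psi_posSemidef b (mul_nonneg (by linarith) hp) hq).add d1).smul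
      (Complex.zero_le_real.2 hν0))
  · exact (((psi_posSemidef b hp (mul_nonneg (by linarith) hq)).add d2).smul
      (Complex.zero_le_real.2 (by linarith)))

theorem psi_zero (b : Bool) : psi b 0 0 = 0 := by
  ext i j
  fin_cases i <;> fin_cases j <;> simp [psi]

/-- The normalised states of the ensemble. -/
noncomputable def st (b : Bool) (p q : ℝ) : Matrix (Fin 2) (Fin 2) ℂ :=
  if p + q = 0 then psi b 1 0 else (((p + q)⁻¹ : ℝ) : ℂ) • psi b p q

theorem st_isState (b : Bool) {p q : ℝ} (hp : 0 ≤ p) (hq : 0 ≤ q) : IsState (st b p q) := by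
  unfold st
  split_ifs with h
  · exact ⟨psi_posSemidef b zero_le_one le_rfl, by rw [psi_trace]; simp⟩
  · refine ⟨(psi_posSemidef b hp hq).smul
      (Complex.zero_le_real.2 (inv_nonneg.2 (add_nonneg hp hq))), ?_⟩
    rw [trace_smul, psi_trace, smul_eq_mul, ← Complex.ofReal_mul, inv_mul_cancel₀ h]
    simp

theorem smul_gadc_st {p q : ℝ} (hp : 0 ≤ p) (hq : 0 ≤ q) (γ ν : ℝ) (b : Bool) :
    ((p + q : ℝ) : ℂ) • gadc γ ν (st b p q) = gadc γ ν (psi b p q) := by
  unfold st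
  split_ifs with h
  · have hp0 : p = 0 := by linarith
    have hq0 : q = 0 := by linarith
    rw [hp0, hq0, psi_zero]
    simp
  · rw [map_smul, smul_smul, ← Complex.ofReal_mul, mul_inv_cancel₀ h]
    simp

theorem vN_gadc_st {γ ν : ℝ} (hγ : γ ∈ Set.Icc (0 : ℝ) 1) (hν : ν ∈ Set.Icc (0 : ℝ) 1)
    (b : Bool) {p q : ℝ} (hp : 0 ≤ p) (hq : 0 ≤ q) :
    (p + q) * vN (gadc γ ν (st b p q)) =
      eta2 (p + q) (outDet γ ν p q) - Real.negMulLog (p + q) := by
  have hps := gadc_psi_posSemidef hγ hν b hp hq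
  have h2 := vN_two hps
  rw [gadc_psi_trace, gadc_psi_det hγ.2 ν b hp hq] at h2
  rw [← h2]
  by_cases h : p + q = 0
  · have hp0 : p = 0 := by linarith
    have hq0 : q = 0 := by linarith
    rw [hp0, hq0, psi_zero]
    simp [vN_zero]
  · have hT : 0 < p + q := lt_of_le_of_ne (add_nonneg hp hq) (Ne.symm h)
    have e : gadc γ ν (st b p q) = (((p + q)⁻¹ : ℝ) : ℂ) • gadc γ ν (psi b p q) := by
      unfold st
      rw [if_neg h, map_smul]
    rw [e, vN_smul hps (inv_nonneg.2 hT.le), gadc_psi_trace, Real.negMulLog, Real.negMulLog,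
      Real.log_inv]
    field_simp
    ring

/-- The single-letter bound. -/
theorem single_letter {γ ν : ℝ} (hγ : γ ∈ Set.Icc (0 : ℝ) 1) (hν : ν ∈ Set.Icc (0 : ℝ) 1)
    {α : Type} [Fintype α] (p q : α → ℝ) (hp : ∀ a, 0 ≤ p a) (hq : ∀ a, 0 ≤ q a)
    (hsum : ∑ a, (p a + q a) = 1) :
    ∃ v ∈ holevoSet (gadc γ ν),
      Real.negMulLog ((1 - γ) * (∑ a, q a) + γ * ν) +
        Real.negMulLog (1 - ((1 - γ) * (∑ a, q a) + γ * ν)) -
        ∑ a, (eta2 (p a + q a) (((1 - γ * ν) * p a + γ * (1 - ν) * q a) *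
          (γ * ν * p a + (1 - γ * (1 - ν)) * q a) - (1 - γ) * (p a * q a)) -
          Real.negMulLog (p a + q a)) = v * Real.log 2 := by
  classical
  set e : (α × Bool) ≃ Fin (Fintype.card (α × Bool)) := Fintype.equivFin (α × Bool) with he
  set t : ℝ := (1 - γ) * (∑ a, q a) + γ * ν with ht
  have hsum' : ∑ a, p a + ∑ a, q a = 1 := by rw [← Finset.sum_add_distrib]; exact hsum
  -- the ensemble
  let w : Fin (Fintype.card (α × Bool)) → ℝ := fun i => (p (e.symm i).1 + q (e.symm i).1) / 2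
  let ρ : Fin (Fintype.card (α × Bool)) → Matrix (Fin 2) (Fin 2) ℂ :=
    fun i => st (e.symm i).2 (p (e.symm i).1) (q (e.symm i).1)
  have havg : ∑ i, (w i : ℂ) • gadc γ ν (ρ i) =
      diagonal (fun j => ((![1 - t, t] j : ℝ) : ℂ)) := by
    have h1 : ∑ i, (w i : ℂ) • gadc γ ν (ρ i) =
        ∑ x : α × Bool, (((p x.1 + q x.1) / 2 : ℝ) : ℂ) • gadc γ ν (st x.2 (p x.1) (q x.1)) :=
      e.symm.sum_comp fun x : α × Bool =>
        (((p x.1 + q x.1) / 2 : ℝ) : ℂ) • gadc γ ν (st x.2 (p x.1) (q x.1))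
    have h2 : ∀ x : α × Bool,
        (((p x.1 + q x.1) / 2 : ℝ) : ℂ) • gadc γ ν (st x.2 (p x.1) (q x.1)) =
          ((1 / 2 : ℝ) : ℂ) • gadc γ ν (psi x.2 (p x.1) (q x.1)) := by
      intro x
      rw [← smul_gadc_st (hp x.1) (hq x.1) γ ν x.2, smul_smul, ← Complex.ofReal_mul]
      congr 3
      ring
    rw [h1, Finset.sum_congr rfl fun x _ => h2 x, Fintype.sum_prod_type]
    have h3 : ∀ a : α, ∑ b : Bool, ((1 / 2 : ℝ) : ℂ) • gadc γ ν (psi b (p a) (q a)) =
        diagonal (fun j => ((![(1 - γ * ν) * p a + γ * (1 - ν) * q a,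
          γ * ν * p a + (1 - γ * (1 - ν)) * q a] j : ℝ) : ℂ)) := by
      intro a
      rw [Fintype.sum_bool, gadc_psi, gadc_psi]
      ext i j
      fin_cases i <;> fin_cases j <;> simp <;> ring
    rw [Finset.sum_congr rfl fun a _ => h3 a]
    ext i j
    rw [Matrix.sum_apply]
    fin_cases i <;> fin_cases j
    · simp only [Fin.zero_eta, diagonal_apply_eq]
      rw [← Complex.ofReal_sum]
      congr 1
      simp only [Matrix.cons_val_zero, Finset.sum_add_distrib, ← Finset.mul_sum]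
      rw [ht]
      linear_combination (1 - γ * ν) * hsum'
    · simp
    · simp
    · simp only [Fin.mk_one, diagonal_apply_eq]
      rw [← Complex.ofReal_sum]
      congr 1
      simp only [Matrix.cons_val_one, Matrix.cons_val_fin_one]
      simp only [Finset.sum_add_distrib, ← Finset.mul_sum]
      rw [ht]
      linear_combination (γ * ν) * hsum'
  have hent : (∑ i, w i * entropy (gadc γ ν (ρ i))) * Real.log 2 =
      ∑ a, (eta2 (p a + q a) (outDet γ ν (p a) (q a)) - Real.negMulLog (p a + q a)) := by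
    rw [Finset.sum_mul]
    set g : α × Bool → ℝ := fun x => (1 / 2 : ℝ) *
          (eta2 (p x.1 + q x.1) (outDet γ ν (p x.1) (q x.1)) -
            Real.negMulLog (p x.1 + q x.1)) with hg
    have h1 : ∀ i, w i * entropy (gadc γ ν (ρ i)) * Real.log 2 = g (e.symm i) := by
      intro i
      rw [mul_assoc, single_entropy_vN]
      have := vN_gadc_st hγ hν (e.symm i).2 (hp (e.symm i).1) (hq (e.symm i).1)
      simp only [w, ρ, hg]
      rw [← this]
      ring
    rw [Finset.sum_congr rfl fun i _ => h1 i, e.symm.sum_comp g, Fintype.sum_prod_type]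
    refine Finset.sum_congr rfl fun a _ => ?_
    rw [Fintype.sum_bool]
    ring
  have hq0 : 0 ≤ ∑ a, q a := Finset.sum_nonneg fun a _ => hq a
  have hp0 : 0 ≤ ∑ a, p a := Finset.sum_nonneg fun a _ => hp a
  obtain ⟨hγ0, hγ1⟩ := hγ
  obtain ⟨hν0, hν1⟩ := hν
  have ht0 : 0 ≤ t := by
    have := mul_nonneg (sub_nonneg.2 hγ1) hq0
    have := mul_nonneg hγ0 hν0
    linarith
  have ht1 : 0 ≤ 1 - t := by
    have h1 : (1 - γ) * ∑ a, q a ≤ (1 - γ) * 1 :=
      mul_le_mul_of_nonneg_left (by linarith) (by linarith)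
    have h2 : γ * ν ≤ γ * 1 := mul_le_mul_of_nonneg_left hν1 hγ0
    linarith
  have havgE : entropy (∑ i, (w i : ℂ) • gadc γ ν (ρ i)) * Real.log 2 =
      Real.negMulLog t + Real.negMulLog (1 - t) := by
    rw [single_entropy_vN, havg, vN_diagonal]
    · simp [Fin.sum_univ_two]
      ring
    · intro i
      fin_cases i
      · simpa using ht1
      · simpa using ht0
  refine ⟨entropy (∑ i, (w i : ℂ) • gadc γ ν (ρ i)) - ∑ i, w i * entropy (gadc γ ν (ρ i)),
    ⟨_, w, ρ, ?_, ?_, ?_, rfl⟩, ?_⟩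
  · intro i
    exact div_nonneg (add_nonneg (hp _) (hq _)) zero_le_two
  · have h1 : ∑ i, w i = ∑ x : α × Bool, (p x.1 + q x.1) / 2 :=
      e.symm.sum_comp fun x : α × Bool => (p x.1 + q x.1) / 2
    rw [h1, Fintype.sum_prod_type]
    simp only [Fintype.sum_bool]
    rw [← hsum]
    refine Finset.sum_congr rfl fun a _ => ?_
    ring
  · intro i
    exact st_isState _ (hp _) (hq _)
  · rw [sub_mul, hent, havgE]
    rfl

end Vale.Agent.P358
end
end

section

section

set_option autoImplicit false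

namespace Vale.Agent.P358

open Matrix
open scoped ComplexOrder

/-- Split off the first qubit. -/
def splitE (n : ℕ) : (Fin (n + 1) → Fin 2) ≃ (Fin n → Fin 2) ⊕ (Fin n → Fin 2) where
  toFun x := if x 0 = 0 then Sum.inl (Fin.tail x) else Sum.inr (Fin.tail x)
  invFun s := Sum.elim (fun x => Fin.cons 0 x) (fun x => Fin.cons 1 x) s
  left_inv x := by
    rcases (by omega : x 0 = 0 ∨ x 0 = 1) with h' | h'
    · simp only [h', if_true, Sum.elim_inl]
      rw [← h']
      exact Fin.cons_self_tail x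
    · simp only [h', one_ne_zero, if_false, Sum.elim_inr]
      rw [← h']
      exact Fin.cons_self_tail x
  right_inv s := by
    rcases s with s | s
    · simp
    · simp

theorem splitE_symm_inl (n : ℕ) (x : Fin n → Fin 2) :
    (splitE n).symm (Sum.inl x) = Fin.cons 0 x := rfl

theorem splitE_symm_inr (n : ℕ) (x : Fin n → Fin 2) :
    (splitE n).symm (Sum.inr x) = Fin.cons 1 x := rfl

theorem sum_split {n : ℕ} (f : (Fin (n + 1) → Fin 2) → ℂ) :
    ∑ x, f x = ∑ x : Fin n → Fin 2, f (Fin.cons 0 x) + ∑ x : Fin n → Fin 2, f (Fin.cons 1 x) := by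
  rw [← (splitE n).symm.sum_comp f, Fintype.sum_sum_type]
  rfl

theorem tensorPower_cons (Φ : Matrix (Fin 2) (Fin 2) ℂ →ₗ[ℂ] Matrix (Fin 2) (Fin 2) ℂ) (n : ℕ)
    (X : Matrix (Fin (n + 1) → Fin 2) (Fin (n + 1) → Fin 2) ℂ) (b b' : Fin 2)
    (y y' : Fin n → Fin 2) :
    tensorPower Φ (n + 1) X (Fin.cons b y) (Fin.cons b' y') =
      ∑ a : Fin 2, ∑ a' : Fin 2, Φ (Matrix.single a a' 1) b b' *
        tensorPower Φ n (Matrix.of fun x x' => X (Fin.cons a x) (Fin.cons a' x')) y y' := by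
  simp only [tensorPower, tensorPowerFun, LinearMap.coe_mk, AddHom.coe_mk, of_apply, sum_split,
    Fin.prod_univ_succ, Fin.cons_zero, Fin.cons_succ, Fin.sum_univ_two, Finset.mul_sum,
    Finset.sum_add_distrib]
  have e : ∀ a b c : ℂ, a * (b * c) = b * (a * c) := fun a b c => by ring
  simp only [e]

theorem gadc_single (γ ν : ℝ) (a a' b b' : Fin 2) :
    gadc γ ν (Matrix.single a a' 1) b b' =
      (!![!![((1 - γ * ν : ℝ) : ℂ), 0; 0, ((γ * ν : ℝ) : ℂ)],
        !![0, ((Real.sqrt (1 - γ) : ℝ) : ℂ); 0, 0];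
        !![0, 0; ((Real.sqrt (1 - γ) : ℝ) : ℂ), 0],
        !![((γ * (1 - ν) : ℝ) : ℂ), 0; 0, ((1 - γ * (1 - ν) : ℝ) : ℂ)]]
        : Matrix (Fin 2) (Fin 2) (Matrix (Fin 2) (Fin 2) ℂ)) a a' b b' := by
  rw [gadc_apply]
  fin_cases a <;> fin_cases a' <;> fin_cases b <;> fin_cases b' <;> simp <;> ring

theorem tensorPower_succ (γ ν : ℝ) (n : ℕ)
    (X : Matrix (Fin (n + 1) → Fin 2) (Fin (n + 1) → Fin 2) ℂ) :
    let B := X.submatrix (splitE n).symm (splitE n).symm
    let T := tensorPower (gadc γ ν) n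
    (tensorPower (gadc γ ν) (n + 1) X).submatrix (splitE n).symm (splitE n).symm =
      fromBlocks (((1 - γ * ν : ℝ) : ℂ) • T B.toBlocks₁₁ + ((γ * (1 - ν) : ℝ) : ℂ) • T B.toBlocks₂₂)
        (((Real.sqrt (1 - γ) : ℝ) : ℂ) • T B.toBlocks₁₂)
        (((Real.sqrt (1 - γ) : ℝ) : ℂ) • T B.toBlocks₂₁)
        (((γ * ν : ℝ) : ℂ) • T B.toBlocks₁₁ + ((1 - γ * (1 - ν) : ℝ) : ℂ) • T B.toBlocks₂₂) := by
  intro B T
  have e11 : (Matrix.of fun x x' => X (Fin.cons 0 x) (Fin.cons 0 x')) = B.toBlocks₁₁ := rfl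
  have e12 : (Matrix.of fun x x' => X (Fin.cons 0 x) (Fin.cons 1 x')) = B.toBlocks₁₂ := rfl
  have e21 : (Matrix.of fun x x' => X (Fin.cons 1 x) (Fin.cons 0 x')) = B.toBlocks₂₁ := rfl
  have e22 : (Matrix.of fun x x' => X (Fin.cons 1 x) (Fin.cons 1 x')) = B.toBlocks₂₂ := rfl
  ext s s'
  rcases s with y | y <;> rcases s' with y' | y'
  · rw [submatrix_apply, splitE_symm_inl, splitE_symm_inl, tensorPower_cons]
    simp only [Fin.sum_univ_two, gadc_single, e11, e12, e21, e22]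
    simp [T]
  · rw [submatrix_apply, splitE_symm_inl, splitE_symm_inr, tensorPower_cons]
    simp only [Fin.sum_univ_two, gadc_single, e11, e12, e21, e22]
    simp [T]
  · rw [submatrix_apply, splitE_symm_inl, splitE_symm_inr, tensorPower_cons]
    simp only [Fin.sum_univ_two, gadc_single, e11, e12, e21, e22]
    simp [T]
  · rw [submatrix_apply, splitE_symm_inr, splitE_symm_inr, tensorPower_cons]
    simp only [Fin.sum_univ_two, gadc_single, e11, e12, e21, e22]
    simp [T]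

/-- tensor power of a Kraus form. -/
theorem tensorPower_kraus {m : ℕ}
    (Φ : Matrix (Fin 2) (Fin 2) ℂ →ₗ[ℂ] Matrix (Fin 2) (Fin 2) ℂ)
    (A : Fin m → Matrix (Fin 2) (Fin 2) ℂ) (hΦ : ∀ X, Φ X = ∑ j, A j * X * (A j)ᴴ) (n : ℕ)
    (X : Matrix (Fin n → Fin 2) (Fin n → Fin 2) ℂ) :
    tensorPower Φ n X = ∑ k : Fin n → Fin m,
      prodM (fun i => A (k i)) * X * (prodM (fun i => A (k i)))ᴴ := by
  have h1 : ∀ a a' b b' : Fin 2, Φ (Matrix.single a a' 1) b b'
      = ∑ j, A j b a * star (A j b' a') := by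
    intro a a' b b'
    rw [hΦ, Matrix.sum_apply]
    refine Finset.sum_congr rfl fun j _ => ?_
    rw [Matrix.mul_apply, Finset.sum_eq_single a']
    · rw [Matrix.mul_apply, Finset.sum_eq_single a]
      · simp
      · intro c _ hc
        simp [Ne.symm hc]
      · simp
    · intro c _ hc
      rw [Matrix.mul_apply, Finset.sum_eq_zero, zero_mul]
      intro d _
      simp [Ne.symm hc]
    · simp
  ext y y'
  rw [Matrix.sum_apply]
  have h2 : ∀ k : Fin n → Fin m,
      (prodM (fun i => A (k i)) * X * (prodM (fun i => A (k i)))ᴴ) y y'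
      = ∑ x, ∑ x', X x x' * ∏ i, (A (k i) (y i) (x i) * star (A (k i) (y' i) (x' i))) := by
    intro k
    rw [Matrix.mul_apply]
    simp only [Matrix.mul_apply, Finset.sum_mul, conjTranspose_apply, prodM_apply, star_prod,
      Finset.prod_mul_distrib]
    rw [Finset.sum_comm]
    refine Finset.sum_congr rfl fun x _ => Finset.sum_congr rfl fun x' _ => ?_
    ring
  simp only [h2]
  rw [Finset.sum_comm]
  simp only [tensorPower, tensorPowerFun, LinearMap.coe_mk, AddHom.coe_mk, of_apply]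
  refine Finset.sum_congr rfl fun x _ => ?_
  rw [Finset.sum_comm]
  refine Finset.sum_congr rfl fun x' _ => ?_
  rw [← Finset.mul_sum]
  congr 1
  simp only [h1]
  rw [Finset.prod_univ_sum, Fintype.piFinset_univ]

theorem gadc_kraus {γ ν : ℝ} (hγ : γ ∈ Set.Icc (0:ℝ) 1) (hν : ν ∈ Set.Icc (0:ℝ) 1) :
    ∃ A : Fin 4 → Matrix (Fin 2) (Fin 2) ℂ, ∀ X, gadc γ ν X = ∑ j, A j * X * (A j)ᴴ := by
  have hs : ∀ c : ℝ, 0 ≤ c → ((Real.sqrt c : ℝ) : ℂ) * ((Real.sqrt c : ℝ) : ℂ) = c := by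
    intro c hc
    rw [← Complex.ofReal_mul, Real.mul_self_sqrt hc]
  refine ⟨![((Real.sqrt (1 - ν) : ℝ) : ℂ) • !![1, 0; 0, ((Real.sqrt (1 - γ) : ℝ) : ℂ)],
    ((Real.sqrt ((1 - ν) * γ) : ℝ) : ℂ) • !![0, 1; 0, 0],
    ((Real.sqrt ν : ℝ) : ℂ) • !![((Real.sqrt (1 - γ) : ℝ) : ℂ), 0; 0, 1],
    ((Real.sqrt (ν * γ) : ℝ) : ℂ) • !![0, 0; 1, 0]], fun X => ?_⟩
  rw [gadc_eq_kraus hγ]
  have e : ∀ (c : ℝ) (hc : 0 ≤ c) (M : Matrix (Fin 2) (Fin 2) ℂ),
      (((Real.sqrt c : ℝ) : ℂ) • M) * X * (((Real.sqrt c : ℝ) : ℂ) • M)ᴴ = (c : ℂ) • (M * X * Mᴴ) := by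
    intro c hc M
    rw [conjTranspose_smul, RCLike.star_def, Complex.conj_ofReal, Matrix.smul_mul, Matrix.smul_mul,
      Matrix.mul_smul, smul_smul, hs c hc]
  rw [Fin.sum_univ_four]
  simp only [cons_val_zero, cons_val_one, cons_val]
  rw [e _ (sub_nonneg.2 hν.2), e _ (mul_nonneg (sub_nonneg.2 hν.2) hγ.1), e _ hν.1,
    e _ (mul_nonneg hν.1 hγ.1)]

theorem tensorPower_posSemidef {γ ν : ℝ} (hγ : γ ∈ Set.Icc (0:ℝ) 1) (hν : ν ∈ Set.Icc (0:ℝ) 1)
    (n : ℕ) {X : Matrix (Fin n → Fin 2) (Fin n → Fin 2) ℂ} (hX : X.PosSemidef) :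
    (tensorPower (gadc γ ν) n X).PosSemidef := by
  obtain ⟨A, hA⟩ := gadc_kraus hγ hν
  rw [tensorPower_kraus _ A hA]
  exact posSemidef_sum _ fun k _ => hX.mul_mul_conjTranspose_same _

theorem block_posSemidef {γ ν : ℝ} (hγ : γ ∈ Set.Icc (0:ℝ) 1) (hν : ν ∈ Set.Icc (0:ℝ) 1)
    (n : ℕ) {X : Matrix ((Fin n → Fin 2) ⊕ (Fin n → Fin 2)) ((Fin n → Fin 2) ⊕ (Fin n → Fin 2)) ℂ}
    (hX : X.PosSemidef) :
    let T := tensorPower (gadc γ ν) n
    (fromBlocks (T X.toBlocks₁₁) (T X.toBlocks₁₂) (T X.toBlocks₂₁) (T X.toBlocks₂₂)).PosSemidef := by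
  intro T
  obtain ⟨A, hA⟩ := gadc_kraus hγ hν
  have h : fromBlocks (T X.toBlocks₁₁) (T X.toBlocks₁₂) (T X.toBlocks₂₁) (T X.toBlocks₂₂)
      = ∑ k : Fin n → Fin 4, fromBlocks (prodM (fun i => A (k i))) 0 0 (prodM (fun i => A (k i)))
        * X * (fromBlocks (prodM (fun i => A (k i))) 0 0 (prodM (fun i => A (k i))))ᴴ := by
    have hs : ∀ k : Fin n → Fin 4,
        fromBlocks (prodM (fun i => A (k i))) 0 0 (prodM (fun i => A (k i)))
        * X * (fromBlocks (prodM (fun i => A (k i))) 0 0 (prodM (fun i => A (k i))))ᴴ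
        = fromBlocks (prodM (fun i => A (k i)) * X.toBlocks₁₁ * (prodM (fun i => A (k i)))ᴴ)
          (prodM (fun i => A (k i)) * X.toBlocks₁₂ * (prodM (fun i => A (k i)))ᴴ)
          (prodM (fun i => A (k i)) * X.toBlocks₂₁ * (prodM (fun i => A (k i)))ᴴ)
          (prodM (fun i => A (k i)) * X.toBlocks₂₂ * (prodM (fun i => A (k i)))ᴴ) := by
      intro k
      conv_lhs => rw [← fromBlocks_toBlocks X]
      rw [fromBlocks_conjTranspose, fromBlocks_multiply, fromBlocks_multiply]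
      simp
    simp only [hs, T]
    rw [tensorPower_kraus _ A hA, tensorPower_kraus _ A hA, tensorPower_kraus _ A hA,
      tensorPower_kraus _ A hA]
    ext i j
    rcases i with i | i <;> rcases j with j | j <;> simp [Matrix.sum_apply]
  rw [h]
  exact posSemidef_sum _ fun k _ => hX.mul_mul_conjTranspose_same _

theorem trace_tensorPower (γ ν : ℝ) (n : ℕ) (X : Matrix (Fin n → Fin 2) (Fin n → Fin 2) ℂ) :
    (tensorPower (gadc γ ν) n X).trace = X.trace := by
  induction n with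
  | zero =>
    simp [tensorPower, tensorPowerFun, trace]
  | succ n ih =>
    have h := tensorPower_succ γ ν n X
    have ht : ∀ Z : Matrix (Fin (n + 1) → Fin 2) (Fin (n + 1) → Fin 2) ℂ,
        Z.trace = (Z.submatrix (splitE n).symm (splitE n).symm).toBlocks₁₁.trace
          + (Z.submatrix (splitE n).symm (splitE n).symm).toBlocks₂₂.trace := by
      intro Z
      simp only [trace, diag_apply, toBlocks₁₁, toBlocks₂₂, of_apply, submatrix_apply,
        splitE_symm_inl, splitE_symm_inr, sum_split]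
    rw [ht, ht X, h]
    simp only [toBlocks_fromBlocks₁₁, toBlocks_fromBlocks₂₂, trace_add, trace_smul, ih, smul_eq_mul]
    push_cast
    ring

theorem tensorPower_isState {γ ν : ℝ} (hγ : γ ∈ Set.Icc (0:ℝ) 1) (hν : ν ∈ Set.Icc (0:ℝ) 1)
    (n : ℕ) {X : Matrix (Fin n → Fin 2) (Fin n → Fin 2) ℂ} (hX : IsState X) :
    IsState (tensorPower (gadc γ ν) n X) :=
  ⟨tensorPower_posSemidef hγ hν n hX.1, by rw [trace_tensorPower, hX.2]⟩

end Vale.Agent.P358
end
end

section

section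

set_option autoImplicit false

/-!
The induction over the number of uses, in homogeneous form, the Holevo capacity of the tensor
powers, and the classical capacity.
-/

namespace Vale.Agent.P358

open Matrix
open scoped ComplexOrder

/-- The one-step inequality for the qubit channel. -/
theorem zineq {ι : Type} [Fintype ι] [DecidableEq ι] {γ ν : ℝ} (hγ : γ ∈ Set.Icc (0:ℝ) 1)
    (hν : ν ∈ Set.Icc (0:ℝ) 1) {P Y Q : Matrix ι ι ℂ} (h : (fromBlocks P Y Yᴴ Q).PosSemidef) :
    eta2 (P.trace.re + Q.trace.re) (((1-γ*ν) * P.trace.re + γ*(1-ν) * Q.trace.re) *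
          (γ*ν * P.trace.re + (1-γ*(1-ν)) * Q.trace.re) - (1-γ) * (P.trace.re * Q.trace.re)) +
        (vN P - Real.negMulLog P.trace.re) + (vN Q - Real.negMulLog Q.trace.re) ≤
      vN (fromBlocks (((1-γ*ν : ℝ) : ℂ) • P + ((γ*(1-ν) : ℝ) : ℂ) • Q)
        (((Real.sqrt (1-γ) : ℝ) : ℂ) • Y) (((Real.sqrt (1-γ) : ℝ) : ℂ) • Yᴴ)
        (((γ*ν : ℝ) : ℂ) • P + ((1-γ*(1-ν) : ℝ) : ℂ) • Q)) := by
  obtain ⟨g0, g1⟩ := hγ
  obtain ⟨n0, n1⟩ := hν
  have hs : Real.sqrt (1 - γ) ^ 2 = 1 - γ := Real.sq_sqrt (sub_nonneg.2 g1)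
  have h1 : 0 ≤ 1 - γ * ν := by nlinarith
  have h2 : 0 ≤ γ * (1 - ν) := mul_nonneg g0 (sub_nonneg.2 n1)
  have h3 : 0 ≤ γ * ν := mul_nonneg g0 n0
  have h4 : 0 ≤ 1 - γ * (1 - ν) := by nlinarith
  have hz := Zineq h1 h2 h3 h4 (Real.sqrt_nonneg (1 - γ)) (by ring) (by ring)
    (by rw [hs]; ring) h
  unfold dt at hz
  rw [hs] at hz
  exact hz

/-- The excited population of the `i`-th qubit. -/
noncomputable def pop {n : ℕ} (X : Matrix (Fin n → Fin 2) (Fin n → Fin 2) ℂ) (i : Fin n) : ℝ :=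
  ∑ x, if x i = 1 then (X x x).re else 0

theorem trace_re_nonneg {ι : Type} [Fintype ι] {X : Matrix ι ι ℂ} (hX : X.PosSemidef) :
    0 ≤ X.trace.re :=
  (Complex.le_def.1 hX.trace_nonneg).1

/-- The entropy of a `1 × 1` matrix. -/
theorem vN_of_unique {ι : Type} [Fintype ι] [DecidableEq ι] [Unique ι] {X : Matrix ι ι ℂ}
    (hX : X.PosSemidef) : vN X = Real.negMulLog X.trace.re := by
  have h : X.trace.re = hX.1.eigenvalues default := by
    rw [hX.1.trace_eq_sum_eigenvalues]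
    simp
  rw [h, vN, dif_pos hX.1]
  simp

section blocks

variable {n : ℕ} (X : Matrix (Fin (n+1) → Fin 2) (Fin (n+1) → Fin 2) ℂ)

/-- A sum over all configurations splits according to the first one. -/
theorem sum_splitE {M : Type} [AddCommMonoid M] (f : (Fin (n+1) → Fin 2) → M) :
    ∑ x, f x = (∑ y : Fin n → Fin 2, f (Fin.cons 0 y)) + ∑ y : Fin n → Fin 2, f (Fin.cons 1 y) := by
  rw [← (splitE n).symm.sum_comp f, Fintype.sum_sum_type]
  rfl

theorem trace_split : X.trace.re =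
    (X.submatrix (splitE n).symm (splitE n).symm).toBlocks₁₁.trace.re +
      (X.submatrix (splitE n).symm (splitE n).symm).toBlocks₂₂.trace.re := by
  rw [← Complex.add_re]
  congr 1
  simp only [Matrix.trace, diag_apply]
  exact sum_splitE fun x => X x x

theorem pop_zero_split : pop X 0 =
    (X.submatrix (splitE n).symm (splitE n).symm).toBlocks₂₂.trace.re := by
  rw [pop, sum_splitE]
  simp only [Fin.cons_zero, Matrix.trace, diag_apply, Complex.re_sum]
  simp
  rfl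

theorem pop_succ_split (i : Fin n) : pop X i.succ =
    pop (X.submatrix (splitE n).symm (splitE n).symm).toBlocks₁₁ i +
      pop (X.submatrix (splitE n).symm (splitE n).symm).toBlocks₂₂ i := by
  rw [pop, sum_splitE]
  simp only [Fin.cons_succ]
  rfl

end blocks

/-- One step of the induction for a single input. -/
theorem vN_step {γ ν : ℝ} (hγ : γ ∈ Set.Icc (0:ℝ) 1) (hν : ν ∈ Set.Icc (0:ℝ) 1) {n : ℕ}
    {X : Matrix (Fin (n+1) → Fin 2) (Fin (n+1) → Fin 2) ℂ} (hX : X.PosSemidef) :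
    let P := (X.submatrix (splitE n).symm (splitE n).symm).toBlocks₁₁
    let Q := (X.submatrix (splitE n).symm (splitE n).symm).toBlocks₂₂
    eta2 (P.trace.re + Q.trace.re) (((1-γ*ν) * P.trace.re + γ*(1-ν) * Q.trace.re) *
          (γ*ν * P.trace.re + (1-γ*(1-ν)) * Q.trace.re) - (1-γ) * (P.trace.re * Q.trace.re)) +
        (vN (tensorPower (gadc γ ν) n P) - Real.negMulLog P.trace.re) +
        (vN (tensorPower (gadc γ ν) n Q) - Real.negMulLog Q.trace.re) ≤
      vN (tensorPower (gadc γ ν) (n+1) X) := by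
  intro P Q
  set B := X.submatrix (splitE n).symm (splitE n).symm with hB
  have hBpos : B.PosSemidef := hX.submatrix _
  have hblk := block_posSemidef hγ hν n hBpos
  simp only at hblk
  have hherm : tensorPower (gadc γ ν) n B.toBlocks₂₁ =
      (tensorPower (gadc γ ν) n B.toBlocks₁₂)ᴴ := by
    have h1 := hblk.1
    rw [IsHermitian, fromBlocks_conjTranspose, fromBlocks_inj] at h1
    exact h1.2.2.1.symm
  rw [hherm] at hblk
  have hz := zineq hγ hν hblk
  have hout := tensorPower_succ γ ν n X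
  simp only at hout
  rw [← hB, hherm] at hout
  have hT := tensorPower_posSemidef hγ hν (n+1) hX
  rw [← vN_submatrix hT (splitE n).symm, hout]
  rw [trace_tensorPower, trace_tensorPower] at hz
  exact hz

/-- **The induction**: the claim for finite families of positive semidefinite inputs. -/
theorem family_bound {γ ν : ℝ} (hγ : γ ∈ Set.Icc (0:ℝ) 1) (hν : ν ∈ Set.Icc (0:ℝ) 1) (n : ℕ) :
    ∀ {α : Type} [Fintype α] (X : α → Matrix (Fin n → Fin 2) (Fin n → Fin 2) ℂ),
      (∀ a, (X a).PosSemidef) → ∑ a, (X a).trace.re = 1 →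
      ∑ i, (Real.negMulLog ((1-γ) * (∑ a, pop (X a) i) + γ*ν) +
          Real.negMulLog (1 - ((1-γ) * (∑ a, pop (X a) i) + γ*ν))) -
        ∑ a, (vN (tensorPower (gadc γ ν) n (X a)) - Real.negMulLog (X a).trace.re) ≤
      n * (holevo (gadc γ ν) * Real.log 2) := by
  induction n with
  | zero =>
    intro α _ X hX _
    have h : ∀ a, vN (tensorPower (gadc γ ν) 0 (X a)) - Real.negMulLog (X a).trace.re = 0 := by
      intro a
      rw [vN_of_unique (tensorPower_posSemidef hγ hν 0 (hX a)), trace_tensorPower, sub_self]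
    simp [h]
  | succ n ih =>
    intro α _ X hX hsum
    set P := fun a => ((X a).submatrix (splitE n).symm (splitE n).symm).toBlocks₁₁ with hP
    set Q := fun a => ((X a).submatrix (splitE n).symm (splitE n).symm).toBlocks₂₂ with hQ
    have hPpos : ∀ a, (P a).PosSemidef := fun a => ((hX a).submatrix _).submatrix Sum.inl
    have hQpos : ∀ a, (Q a).PosSemidef := fun a => ((hX a).submatrix _).submatrix Sum.inr
    have htr : ∀ a, (X a).trace.re = (P a).trace.re + (Q a).trace.re := fun a => trace_split (X a)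
    have hp0 : ∀ a, pop (X a) 0 = (Q a).trace.re := fun a => pop_zero_split (X a)
    have hps : ∀ a i, pop (X a) (Fin.succ i) = pop (P a) i + pop (Q a) i :=
      fun a i => pop_succ_split (X a) i
    have hsum' : ∑ a, ((P a).trace.re + (Q a).trace.re) = 1 := by
      rw [← hsum]
      exact Finset.sum_congr rfl fun a _ => (htr a).symm
    -- the family of blocks
    have h1 := ih (α := α ⊕ α) (Sum.elim P Q)
      (by rintro (a | a); exacts [hPpos a, hQpos a])
      (by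
        rw [Fintype.sum_sum_type]
        simp only [Sum.elim_inl, Sum.elim_inr]
        rw [← Finset.sum_add_distrib]
        exact hsum')
    simp only [Fintype.sum_sum_type, Sum.elim_inl, Sum.elim_inr] at h1
    -- the single letter bound
    obtain ⟨v, hv, hveq⟩ := single_letter hγ hν (fun a => (P a).trace.re) (fun a => (Q a).trace.re)
      (fun a => trace_re_nonneg (hPpos a)) (fun a => trace_re_nonneg (hQpos a)) hsum'
    have h2 : v * Real.log 2 ≤ holevo (gadc γ ν) * Real.log 2 :=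
      mul_le_mul_of_nonneg_right (le_csSup (bddAbove_holevoSet hγ hν) hv) log_two_pos.le
    -- the step
    have h3 : ∀ a, _ ≤ vN (tensorPower (gadc γ ν) (n+1) (X a)) := fun a => vN_step hγ hν (hX a)
    have h4 := Finset.sum_le_sum fun a (_ : a ∈ Finset.univ) => h3 a
    rw [Fin.sum_univ_succ]
    simp only [hp0, hps]
    simp only [Finset.sum_sub_distrib, Finset.sum_add_distrib] at h1 h2 h4 hveq ⊢
    simp only [htr]
    push_cast
    simp only [hP, hQ] at *
    linarith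

/-- Every ensemble for `n` uses has Holevo quantity at most `n` times the Holevo capacity. -/
theorem mem_holevoSet_le {γ ν : ℝ} (hγ : γ ∈ Set.Icc (0:ℝ) 1) (hν : ν ∈ Set.Icc (0:ℝ) 1)
    (n : ℕ) {v : ℝ} (hv : v ∈ holevoSet (tensorPower (gadc γ ν) n)) :
    v ≤ n * holevo (gadc γ ν) := by
  obtain ⟨m, w, ρ, hw, hw1, hρ, rfl⟩ := hv
  have hl := log_two_pos
  have hst : IsState (∑ a, (w a : ℂ) • ρ a) := isState_sum hw hw1 hρ
  have hw' : ∀ a, (0 : ℂ) ≤ (w a : ℂ) := fun a => by exact_mod_cast hw a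
  have hXpos : ∀ a, ((w a : ℂ) • ρ a).PosSemidef := fun a => (hρ a).1.smul (hw' a)
  have htr : ∀ a, ((w a : ℂ) • ρ a).trace.re = w a := by
    intro a
    rw [trace_smul, (hρ a).2]
    simp
  have h1 := family_bound hγ hν n (fun a => (w a : ℂ) • ρ a) hXpos (by simp only [htr]; exact hw1)
  simp only [htr] at h1
  have h2 : ∀ a, vN (tensorPower (gadc γ ν) n ((w a : ℂ) • ρ a)) - Real.negMulLog (w a) =
      w a * vN (tensorPower (gadc γ ν) n (ρ a)) := by
    intro a
    rw [map_smul, vN_smul (tensorPower_posSemidef hγ hν n (hρ a).1) (hw a), trace_tensorPower,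
      (hρ a).2]
    simp
  simp only [h2] at h1
  have h3 := entropy_T_le γ ν n hst (tensorPower_isState hγ hν n hst)
  have h4 : ∀ i : Fin n, (∑ x, if x i = 1 then ((∑ a, (w a : ℂ) • ρ a) x x).re else 0) =
      ∑ a, pop ((w a : ℂ) • ρ a) i := by
    intro i
    simp only [pop]
    rw [Finset.sum_comm]
    refine Finset.sum_congr rfl fun x _ => ?_
    split_ifs
    · rw [Matrix.sum_apply, Complex.re_sum]
    · simp
  simp only [h4] at h3
  have h5 : ∑ a, (w a : ℂ) • tensorPower (gadc γ ν) n (ρ a) =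
      tensorPower (gadc γ ν) n (∑ a, (w a : ℂ) • ρ a) := by
    rw [map_sum]
    simp only [map_smul]
  rw [h5]
  have h6 : ∑ a, w a * entropy (tensorPower (gadc γ ν) n (ρ a)) =
      (∑ a, w a * vN (tensorPower (gadc γ ν) n (ρ a))) / Real.log 2 := by
    rw [Finset.sum_div]
    refine Finset.sum_congr rfl fun a _ => ?_
    rw [entropy_eq_vN, mul_div_assoc]
  rw [h6]
  simp only [eta_eq, ← add_div, ← Finset.sum_div] at h3
  refine (sub_le_sub_right h3 _).trans ?_
  rw [← sub_div, div_le_iff₀ hl]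
  linarith

theorem holevo_tensorPower_le {γ ν : ℝ} (hγ : γ ∈ Set.Icc (0:ℝ) 1) (hν : ν ∈ Set.Icc (0:ℝ) 1)
    (n : ℕ) : holevo (tensorPower (gadc γ ν) n) ≤ n * holevo (gadc γ ν) :=
  csSup_le (holevoSet_nonempty _) fun _ hv => mem_holevoSet_le hγ hν n hv

/-- Additivity of the Holevo capacity for the tensor powers. -/
theorem holevo_tensorPower {γ ν : ℝ} (hγ : γ ∈ Set.Icc (0:ℝ) 1) (hν : ν ∈ Set.Icc (0:ℝ) 1)
    (n : ℕ) : holevo (tensorPower (gadc γ ν) n) = n * holevo (gadc γ ν) := by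
  refine le_antisymm (holevo_tensorPower_le hγ hν n) ?_
  have hbdd : BddAbove (holevoSet (tensorPower (gadc γ ν) n)) :=
    ⟨n * holevo (gadc γ ν), fun v hv => mem_holevoSet_le hγ hν n hv⟩
  rcases Nat.eq_zero_or_pos n with rfl | hn
  · obtain ⟨v, hv⟩ := holevoSet_nonempty (gadc γ ν)
    have h := nsmul_mem_holevoSet (gadc γ ν) (fun ρ hρ => gadc_isState hγ hν hρ) 0 hv
    have h' : _ ≤ holevo (tensorPower (gadc γ ν) 0) := le_csSup hbdd h
    simpa using h'
  · have hn' : (0 : ℝ) < n := by exact_mod_cast hn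
    rw [mul_comm, ← le_div_iff₀ hn']
    refine csSup_le (holevoSet_nonempty _) fun v hv => ?_
    rw [le_div_iff₀ hn', mul_comm]
    exact le_csSup hbdd
      (nsmul_mem_holevoSet (gadc γ ν) (fun ρ hρ => gadc_isState hγ hν hρ) n hv)

/-- The classical capacity equals the Holevo capacity. -/
theorem capacity_eq_holevo {γ ν : ℝ} (hγ : γ ∈ Set.Icc (0:ℝ) 1) (hν : ν ∈ Set.Icc (0:ℝ) 1) :
    capacity (gadc γ ν) = holevo (gadc γ ν) := by
  have hb : ∀ x ∈ {x | ∃ n : ℕ, 1 ≤ n ∧ x = holevo (tensorPower (gadc γ ν) n) / n},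
      x ≤ holevo (gadc γ ν) := by
    rintro x ⟨n, hn, rfl⟩
    have hn' : (0 : ℝ) < n := by exact_mod_cast hn
    rw [div_le_iff₀ hn', mul_comm]
    exact holevo_tensorPower_le hγ hν n
  have h1 : holevo (gadc γ ν) ∈
      {x | ∃ n : ℕ, 1 ≤ n ∧ x = holevo (tensorPower (gadc γ ν) n) / n} :=
    ⟨1, le_rfl, by rw [holevo_tensorPower_one]; simp⟩
  exact le_antisymm (csSup_le ⟨_, h1⟩ hb) (le_csSup ⟨_, hb⟩ h1)

end Vale.Agent.P358
end
end

section

section

set_option autoImplicit false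

namespace Vale.Agent.P358

open Matrix Real
open scoped ComplexOrder

theorem outDet_eq_qform (γ ν p q : ℝ) :
    outDet γ ν p q = qform ((1 - γ * ν) * (γ * ν)) (γ * (1 - ν) * (γ * ν))
      (γ * (1 - ν) * (1 - γ * (1 - ν))) p q := by
  unfold outDet qform
  ring

/-- The value of the two-point ensemble at excited population `q`. -/
noncomputable def fval (γ ν q : ℝ) : ℝ :=
  (negMulLog ((1 - γ) * q + γ * ν) + negMulLog (1 - ((1 - γ) * q + γ * ν)) -
    eta2 1 (outDet γ ν (1 - q) q)) / Real.log 2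

theorem fval_mem {γ ν : ℝ} (hγ : γ ∈ Set.Icc (0 : ℝ) 1) (hν : ν ∈ Set.Icc (0 : ℝ) 1) {q : ℝ}
    (hq : q ∈ Set.Icc (0 : ℝ) 1) : fval γ ν q ∈ holevoSet (gadc γ ν) := by
  obtain ⟨v, hv, h⟩ := single_letter hγ hν (α := Unit) (fun _ => 1 - q) (fun _ => q)
    (fun _ => by linarith [hq.2]) (fun _ => hq.1) (by simp)
  have h2 : Real.log 2 ≠ 0 := (Real.log_pos one_lt_two).ne'
  have : fval γ ν q = v := by
    unfold fval
    rw [div_eq_iff h2, ← h]
    simp [outDet]
  rwa [this]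

theorem gadc_coeffs {γ ν : ℝ} (hγ : γ ∈ Set.Icc (0 : ℝ) 1) (hν : ν ∈ Set.Icc (0 : ℝ) 1) :
    0 ≤ 1 - γ * ν ∧ 0 ≤ γ * (1 - ν) ∧ 0 ≤ γ * ν ∧ 0 ≤ 1 - γ * (1 - ν) := by
  obtain ⟨h1, h2⟩ := hγ
  obtain ⟨h3, h4⟩ := hν
  refine ⟨?_, mul_nonneg h1 (by linarith), mul_nonneg h1 h3, ?_⟩
  · nlinarith
  · nlinarith [mul_nonneg h1 h3]

theorem outDet_jensen {γ ν : ℝ} (hγ : γ ∈ Set.Icc (0 : ℝ) 1) (hν : ν ∈ Set.Icc (0 : ℝ) 1)
    {ι : Type*} (s : Finset ι) (p q : ι → ℝ) (hp : ∀ i ∈ s, 0 ≤ p i) (hq : ∀ i ∈ s, 0 ≤ q i)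
    (hsum : ∑ i ∈ s, (p i + q i) = 1) :
    eta2 1 (outDet γ ν (∑ i ∈ s, p i) (∑ i ∈ s, q i)) ≤
      ∑ i ∈ s, (eta2 (p i + q i) (outDet γ ν (p i) (q i)) - negMulLog (p i + q i)) := by
  simp only [outDet_eq_qform]
  obtain ⟨h1, h2, h3, h4⟩ := gadc_coeffs hγ hν
  apply eta2_jensen s p q (mul_nonneg h1 h3) (mul_nonneg h2 h3) (mul_nonneg h2 h4) _ _ _ _ hp hq
    hsum
  · have : (1 - γ * ν) * (γ * ν) * (γ * (1 - ν) * (1 - γ * (1 - ν))) -
        (γ * (1 - ν) * (γ * ν)) ^ 2 = (γ * (1 - ν) * (γ * ν)) * (1 - γ) := by ring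
    have h5 : 0 ≤ (γ * (1 - ν) * (γ * ν)) * (1 - γ) :=
      mul_nonneg (mul_nonneg h2 h3) (by linarith [hγ.2])
    linarith
  · nlinarith [sq_nonneg (1 - 2 * (γ * ν))]
  · have h5 : γ * (1 - ν) + γ * ν ≤ 1 := by linarith [hγ.2]
    nlinarith [sq_nonneg (γ * (1 - ν) - γ * ν)]
  · nlinarith [sq_nonneg (1 - 2 * (γ * (1 - ν)))]

theorem state_facts {ρ : Matrix (Fin 2) (Fin 2) ℂ} (hρ : IsState ρ) :
    (ρ 0 0).im = 0 ∧ (ρ 1 1).im = 0 ∧ (ρ 0 0).re = 1 - (ρ 1 1).re ∧ 0 ≤ (ρ 1 1).re ∧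
      (ρ 1 1).re ≤ 1 ∧ ρ 1 0 = star (ρ 0 1) ∧
      (ρ 0 1).re ^ 2 + (ρ 0 1).im ^ 2 ≤ (1 - (ρ 1 1).re) * (ρ 1 1).re := by
  have h10 : ρ 1 0 = star (ρ 0 1) := (hρ.1.1.apply 1 0).symm
  have p0 := Complex.nonneg_iff.1 (hρ.1.diag_nonneg (i := 0))
  have p1 := Complex.nonneg_iff.1 (hρ.1.diag_nonneg (i := 1))
  have ht : (ρ 0 0).re + (ρ 1 1).re = 1 := by
    have := congrArg Complex.re hρ.2
    simpa [trace, Fin.sum_univ_two] using this
  have hd := (Complex.nonneg_iff.1 hρ.1.det_nonneg).1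
  rw [det_fin_two, h10] at hd
  simp only [Complex.sub_re, Complex.mul_re, ← p0.2, ← p1.2, RCLike.star_def, Complex.conj_re,
    Complex.conj_im, mul_zero, sub_zero] at hd
  refine ⟨p0.2.symm, p1.2.symm, by linarith, p1.1, by linarith [p0.1], h10, ?_⟩
  have : (ρ 0 0).re = 1 - (ρ 1 1).re := by linarith
  rw [this] at hd
  nlinarith

theorem det_gadc_ge {γ ν : ℝ} (hγ : γ ∈ Set.Icc (0 : ℝ) 1)
    {ρ : Matrix (Fin 2) (Fin 2) ℂ} (hρ : IsState ρ) :
    outDet γ ν (1 - (ρ 1 1).re) (ρ 1 1).re ≤ (gadc γ ν ρ).det.re := by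
  obtain ⟨i0, i1, r0, h0, h1, h10, hd⟩ := state_facts hρ
  set q := (ρ 1 1).re with hq
  have e11 : ρ 1 1 = (q : ℂ) := Complex.ext (by simp [hq]) (by simp [i1])
  have e00 : ρ 0 0 = ((1 - q : ℝ) : ℂ) := Complex.ext (by simp [r0]) (by rw [Complex.ofReal_im, i0])
  have hs : Real.sqrt (1 - γ) ^ 2 = 1 - γ := Real.sq_sqrt (by linarith [hγ.2])
  have h2 : (gadc γ ν ρ).det.re = ((1 - γ * ν) * (1 - q) + γ * (1 - ν) * q) *
      (γ * ν * (1 - q) + (1 - γ * (1 - ν)) * q) -
      Real.sqrt (1 - γ) ^ 2 * ((ρ 0 1).re ^ 2 + (ρ 0 1).im ^ 2) := by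
    rw [det_fin_two, gadc_apply]
    simp only [of_apply, cons_val_zero, cons_val_one,
      cons_val', cons_val_fin_one, h10, e11, e00]
    simp
    ring
  rw [h2, hs]
  unfold outDet
  have : (1 - γ) * ((ρ 0 1).re ^ 2 + (ρ 0 1).im ^ 2) ≤ (1 - γ) * ((1 - q) * q) :=
    mul_le_mul_of_nonneg_left hd (by linarith [hγ.2])
  linarith

theorem four_det_le {ρ : Matrix (Fin 2) (Fin 2) ℂ} (hρ : IsState ρ) :
    4 * ρ.det.re ≤ 1 ^ 2 := by
  obtain ⟨i0, i1, r0, h0, h1, h10, hd⟩ := state_facts hρ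
  rw [det_fin_two, h10]
  simp only [Complex.sub_re, Complex.mul_re, i0, i1, RCLike.star_def, Complex.conj_re,
    Complex.conj_im, mul_zero, sub_zero, r0]
  nlinarith [sq_nonneg (1 - 2 * (ρ 1 1).re), sq_nonneg (ρ 0 1).re, sq_nonneg (ρ 0 1).im]

theorem vN_gadc_ge {γ ν : ℝ} (hγ : γ ∈ Set.Icc (0 : ℝ) 1) (hν : ν ∈ Set.Icc (0 : ℝ) 1)
    {ρ : Matrix (Fin 2) (Fin 2) ℂ} (hρ : IsState ρ) :
    eta2 1 (outDet γ ν (1 - (ρ 1 1).re) (ρ 1 1).re) ≤ vN (gadc γ ν ρ) := by
  have hst := gadc_isState hγ hν hρ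
  obtain ⟨-, -, -, h0, h1, -, -⟩ := state_facts hρ
  obtain ⟨c1, c2, c3, c4⟩ := gadc_coeffs hγ hν
  rw [vN_two hst.1, hst.2, Complex.one_re]
  apply eta2_mono zero_le_one _ (det_gadc_ge hγ hρ) (four_det_le hst)
  rw [outDet_eq_qform]
  exact qform_nonneg (mul_nonneg c1 c3) (mul_nonneg c2 c3) (mul_nonneg c2 c4) (by linarith) h0

theorem gadc_diag {γ ν : ℝ} {ρ : Matrix (Fin 2) (Fin 2) ℂ} (hρ : IsState ρ) :
    (gadc γ ν ρ 0 0).re = 1 - ((1 - γ) * (ρ 1 1).re + γ * ν) ∧
      (gadc γ ν ρ 1 1).re = (1 - γ) * (ρ 1 1).re + γ * ν := by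
  obtain ⟨i0, i1, r0, h0, h1, h10, hd⟩ := state_facts hρ
  rw [gadc_apply]
  constructor <;> simp [i0, i1, r0]

/-- Every Holevo quantity is at most one of the two-point values. -/
theorem holevoSet_le {γ ν : ℝ} (hγ : γ ∈ Set.Icc (0 : ℝ) 1) (hν : ν ∈ Set.Icc (0 : ℝ) 1) {x : ℝ}
    (hx : x ∈ holevoSet (gadc γ ν)) : ∃ q ∈ Set.Icc (0 : ℝ) 1, x ≤ fval γ ν q := by
  obtain ⟨m, w, ρ, hw, hw1, hρ, rfl⟩ := hx
  have hst := fun a => gadc_isState hγ hν (hρ a)
  have hlog : 0 < Real.log 2 := Real.log_pos one_lt_two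
  have hq0 : ∀ a, 0 ≤ (ρ a 1 1).re := fun a => (state_facts (hρ a)).2.2.2.1
  have hq1 : ∀ a, (ρ a 1 1).re ≤ 1 := fun a => (state_facts (hρ a)).2.2.2.2.1
  set q := ∑ a, w a * (ρ a 1 1).re with hq
  have hp : ∑ a, w a * (1 - (ρ a 1 1).re) = 1 - q := by
    simp only [mul_sub, mul_one, Finset.sum_sub_distrib, hw1, hq]
  have hqm : q ∈ Set.Icc (0 : ℝ) 1 := by
    refine ⟨Finset.sum_nonneg fun a _ => mul_nonneg (hw a) (hq0 a), ?_⟩
    rw [← hw1]
    exact Finset.sum_le_sum fun a _ => by nlinarith [hw a, hq1 a]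
  refine ⟨q, hqm, ?_⟩
  unfold fval
  rw [le_div_iff₀ hlog, sub_mul, single_entropy_vN]
  have hA : (∑ a, (w a : ℂ) • gadc γ ν (ρ a)).PosSemidef :=
    posSemidef_sum _ fun a _ => (hst a).1.smul (by exact_mod_cast hw a)
  have h1 := vN_le_diag hA
  have h2 : (∑ a, (w a : ℂ) • gadc γ ν (ρ a)) 1 1 = (∑ a, (w a : ℂ) * gadc γ ν (ρ a) 1 1) := by
    simp [Matrix.sum_apply]
  have h3 : (∑ a, (w a : ℂ) • gadc γ ν (ρ a)) 0 0 = (∑ a, (w a : ℂ) * gadc γ ν (ρ a) 0 0) := by
    simp [Matrix.sum_apply]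
  have h4 : ((∑ a, (w a : ℂ) • gadc γ ν (ρ a)) 1 1).re = (1 - γ) * q + γ * ν := by
    rw [h2, Complex.re_sum]
    simp only [Complex.re_ofReal_mul, (gadc_diag (hρ _)).2]
    simp only [mul_add, Finset.sum_add_distrib, ← Finset.sum_mul, hw1, hq, Finset.mul_sum]
    rw [one_mul]
    congr 1
    exact Finset.sum_congr rfl fun a _ => by ring
  have h5 : ((∑ a, (w a : ℂ) • gadc γ ν (ρ a)) 0 0).re = 1 - ((1 - γ) * q + γ * ν) := by
    rw [← h4, h3, h2, Complex.re_sum, Complex.re_sum, ← hw1, ← Finset.sum_sub_distrib]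
    refine Finset.sum_congr rfl fun a _ => ?_
    rw [Complex.re_ofReal_mul, Complex.re_ofReal_mul, (gadc_diag (hρ _)).2,
      (gadc_diag (hρ _)).1]
    ring
  rw [Fin.sum_univ_two, h4, h5] at h1
  have h6 : eta2 1 (outDet γ ν (1 - q) q) ≤
      (∑ a, w a * entropy (gadc γ ν (ρ a))) * Real.log 2 := by
    have h7 := outDet_jensen hγ hν Finset.univ (fun a => w a * (1 - (ρ a 1 1).re))
      (fun a => w a * (ρ a 1 1).re) (fun a _ => mul_nonneg (hw a) (by linarith [hq1 a]))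
      (fun a _ => mul_nonneg (hw a) (hq0 a)) (by
        rw [Finset.sum_add_distrib, hp, ← hq]
        ring)
    rw [hp, ← hq] at h7
    refine h7.trans ?_
    rw [Finset.sum_mul]
    refine Finset.sum_le_sum fun a _ => ?_
    rw [mul_assoc, single_entropy_vN]
    have h8 := mul_le_mul_of_nonneg_left (vN_gadc_ge hγ hν (hρ a)) (hw a)
    refine le_trans (le_of_eq ?_) h8
    have h9 := eta2_scale (T := 1) (D := outDet γ ν (1 - (ρ a 1 1).re) (ρ a 1 1).re) (hw a)
    have h10 : w a * (1 - (ρ a 1 1).re) + w a * (ρ a 1 1).re = w a * 1 := by ring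
    have h11 : outDet γ ν (w a * (1 - (ρ a 1 1).re)) (w a * (ρ a 1 1).re) =
        w a ^ 2 * outDet γ ν (1 - (ρ a 1 1).re) (ρ a 1 1).re := by
      unfold outDet
      ring
    rw [h10, h11, h9, mul_one]
    ring
  linarith

theorem continuous_fval (γ ν : ℝ) : Continuous (fval γ ν) := by
  unfold fval eta2 outDet
  fun_prop

theorem holevo_isGreatest {γ ν : ℝ} (hγ : γ ∈ Set.Icc (0 : ℝ) 1) (hν : ν ∈ Set.Icc (0 : ℝ) 1) :
    IsGreatest (fval γ ν '' Set.Icc 0 1) (holevo (gadc γ ν)) := by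
  obtain ⟨q, hq, hmax⟩ := isCompact_Icc.exists_isMaxOn (Set.nonempty_Icc.2 (zero_le_one' ℝ))
    (continuous_fval γ ν).continuousOn
  have h1 : holevo (gadc γ ν) = fval γ ν q := by
    apply le_antisymm
    · apply csSup_le ⟨_, fval_mem hγ hν hq⟩
      intro x hx
      obtain ⟨q', hq', h⟩ := holevoSet_le hγ hν hx
      exact h.trans (hmax hq')
    · exact le_csSup (bddAbove_holevoSet hγ hν) (fval_mem hγ hν hq)
  rw [h1]
  refine ⟨⟨q, hq, rfl⟩, ?_⟩
  rintro _ ⟨q', hq', rfl⟩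
  exact hmax hq'

theorem h2_eq (x : ℝ) : h2 x = (negMulLog x + negMulLog (1 - x)) / Real.log 2 := by
  unfold h2 Real.logb negMulLog
  ring

theorem fval_eq (γ ν q : ℝ) : fval γ ν q =
    h2 ((1 - γ) * q + γ * ν) -
      h2 ((1 + √((1 - 2 * ((1 - γ) * q + γ * ν)) ^ 2 + 4 * (1 - γ) * (q * (1 - q)))) / 2) := by
  have e1 : (1 : ℝ) ^ 2 - 4 * outDet γ ν (1 - q) q =
      (1 - 2 * ((1 - γ) * q + γ * ν)) ^ 2 + 4 * (1 - γ) * (q * (1 - q)) := by
    unfold outDet
    ring
  unfold fval eta2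
  rw [h2_eq, h2_eq, e1]
  set r := √((1 - 2 * ((1 - γ) * q + γ * ν)) ^ 2 + 4 * (1 - γ) * (q * (1 - q)))
  have e2 : 1 - (1 + r) / 2 = (1 - r) / 2 := by ring
  rw [e2]
  ring

/-- The one-shot Holevo capacity in closed scalar form. -/
theorem holevo_formula {γ ν : ℝ} (hγ : γ ∈ Set.Icc (0 : ℝ) 1) (hν : ν ∈ Set.Icc (0 : ℝ) 1) :
    IsGreatest ((fun q : ℝ => h2 ((1 - γ) * q + γ * ν) -
      h2 ((1 + √((1 - 2 * ((1 - γ) * q + γ * ν)) ^ 2 + 4 * (1 - γ) * (q * (1 - q)))) / 2)) ''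
      Set.Icc 0 1) (holevo (gadc γ ν)) := by
  have h := holevo_isGreatest hγ hν
  have e : fval γ ν = fun q : ℝ => h2 ((1 - γ) * q + γ * ν) -
      h2 ((1 + √((1 - 2 * ((1 - γ) * q + γ * ν)) ^ 2 + 4 * (1 - γ) * (q * (1 - q)))) / 2) :=
    funext fun q => fval_eq γ ν q
  rwa [e] at h

end Vale.Agent.P358
end
end
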